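import Vale.Agent.P217.Core.CharZero.Estimate

/-!
# P217 module H: the functional `ψ` vanishes once it kills every test direction
-/

noncomputable section

namespace Vale.Agent.P217.H

open Filter Topology

variable {p n : ℕ} [Fact p.Prime] {S : Setup p n}

/-- If the functional vanishes, so does every derivative. -/
theorem Frame.psi_single_eq (T : Frame S) (f₀ : E0 p n) (i₀ : Fin (n - 1)) (hψ : T.ψ f₀ = 0) :
    S.P.x (MvPowerSeries.pderiv (W p n) i₀ f₀) = 0 := by
  have := LinearMap.congr_fun hψ (T.e (0, Pi.single i₀ 1))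
  rw [T.ψ_apply, T.e.symm_apply_apply, S.D₀_apply,
    Finset.sum_eq_single i₀ (fun j _ hj => by simp [hj]) (by simp)] at this
  simpa using this

theorem Frame.exists_ne (T : Frame S) : ∃ k < n, T.Λ k ≠ 0 := by
  by_contra h
  push Not at h
  have h1 : T.e (1, 0) = T.e 0 := by
    rw [map_zero]
    funext r
    simp [T.e_apply, h r r.2]
  exact one_ne_zero (congrArg Prod.fst (T.e.injective h1))

theorem Frame.psi_zero (T : Frame S) (f₀ : E0 p n) 
    (h : ∀ (r : Fin n) (i : ℕ), i < n → T.ψ f₀ (Pi.single r 1) * T.Λ ((r : ℕ) + i) = 0) :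
    T.ψ f₀ = 0 := by
  obtain ⟨k, hk, hΛk⟩ := T.exists_ne
  refine (Pi.basisFun S.K (Fin n)).ext fun r => ?_
  rw [Pi.basisFun_apply, LinearMap.zero_apply]
  rcases le_or_gt (r : ℕ) k with hr | hr
  · have := h r (k - r) (by omega)
    rw [Nat.add_sub_cancel' hr] at this
    exact (mul_eq_zero.1 this).resolve_right hΛk
  · have := h r (k + n - r) (by omega)
    rw [Nat.add_sub_cancel' (by omega)] at this
    refine (mul_eq_zero.1 this).resolve_right fun h => hΛk ?_
    have hp := S.p_mul_lim (Φ := S.xK.toAddMonoidHom) (T.tΛ k) (T.tΛ (k + n))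
    rw [h, mul_zero] at hp
    exact hp.symm

theorem Frame.psi_sum (T : Frame S) (f₀ : E0 p n) (a : Coef p n) (i : ℕ)
    (h : T.ψ f₀ (T.dir a i) = 0) :
    ∑ r : Fin n, (T.ψ f₀ (Pi.single r 1) * T.Λ ((r : ℕ) + i)) * S.teich a ^ p ^ ((r : ℕ) + i) = 0 := by
  classical
  rw [pi_eq_sum_univ' (T.dir a i), map_sum] at h
  simp only [map_smul, smul_eq_mul] at h
  refine Eq.trans (Finset.sum_congr rfl fun r _ => ?_) h
  rw [Frame.dir]
  ring
end Vale.Agent.P217.H
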