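import Mathlib

/-!
# P217 module H: differential calculus of substituted power series

A chain rule for operators which obey the product rule along a ring map.
-/

noncomputable section

namespace Vale.Agent.P217.H

open MvPowerSeries Finset

variable {τ A B : Type*} [CommRing A] [CommRing B]

/-- Series agree in degrees `≤ N`. -/
def Agree (N : ℕ) (f g : MvPowerSeries τ A) : Prop :=
  ∀ e : τ →₀ ℕ, e.degree ≤ N → coeff e f = coeff e g

theorem coeff_pow_eq_zero {g : MvPowerSeries τ A} (hg : g.constantCoeff = 0) {e : τ →₀ ℕ}
    {m : ℕ} (h : e.degree < m) : coeff e (g ^ m) = 0 := by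
  refine coeff_of_lt_order (lt_of_lt_of_le (Nat.cast_lt.2 h) (le_trans ?_ (le_order_pow m)))
  simpa using nsmul_le_nsmul_right (one_le_order_iff_constCoeff_eq_zero.2 hg) m

theorem Agree.mul_right {N : ℕ} {f g : MvPowerSeries τ A} (h : Agree N f g)
    (k : MvPowerSeries τ A) : Agree N (f * k) (g * k) := fun e he => by
  classical
  rw [coeff_mul, coeff_mul]
  refine Finset.sum_congr rfl fun x hx => ?_
  rw [h x.1 (le_trans ?_ he)]
  rw [← HasAntidiagonal.mem_antidiagonal.1 hx, map_add]
  exact Nat.le_add_right _ _

/-- A substituted series is a polynomial in low degrees. -/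
theorem agree_subst {g : MvPowerSeries τ A} (hg : g.constantCoeff = 0) (f : PowerSeries A)
    {N M : ℕ} (hM : N < M) :
    Agree N (PowerSeries.subst g f) (∑ d ∈ range M, C (PowerSeries.coeff d f) * g ^ d) := by
  intro e he
  rw [PowerSeries.coeff_subst (PowerSeries.HasSubst.of_constantCoeff_zero hg),
    finsum_eq_sum_of_support_subset _ (s := range M) fun d hd => ?_, map_sum]
  · simp [coeff_C_mul]
  · simp only [coe_range, Set.mem_Iio]
    by_contra hc
    exact hd (by simp [coeff_pow_eq_zero hg (show e.degree < d by omega)])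

/-- The chain rule. -/
theorem chain_rule (π : A →+* B) (Δ : MvPowerSeries τ A →+ MvPowerSeries τ B) (D : A → B)
    (hmul : ∀ f g, Δ (f * g) = map π f * Δ g + map π g * Δ f)
    (hC : ∀ a, Δ (C a) = C (D a))
    (hloc : ∀ N f g, Agree (N + 1) f g → Agree N (Δ f) (Δ g))
    {g : MvPowerSeries τ A} (hg : g.constantCoeff = 0) (f : PowerSeries A) :
    Δ (PowerSeries.subst g f) =
      PowerSeries.subst (map π g) (PowerSeries.mk fun d => D (PowerSeries.coeff d f)) +
      PowerSeries.subst (map π g) (PowerSeries.map π (PowerSeries.derivative A f)) * Δ g := by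
  have hpow : ∀ d : ℕ, Δ (g ^ (d + 1)) = ((d : MvPowerSeries τ B) + 1) * map π g ^ d * Δ g := by
    intro d
    induction d with
    | zero => simp
    | succ d ih => rw [pow_succ, hmul, ih, map_pow]; push_cast; ring
  have hg' : (map π g).constantCoeff = 0 := by simp [constantCoeff_map, hg]
  ext e
  set N := e.degree with hN
  rw [hloc N _ _ (agree_subst hg f (Nat.lt_succ_self (N + 1))) e hN.ge, map_add]
  rw [(agree_subst hg' (PowerSeries.mk fun d => D (PowerSeries.coeff d f))
      (show N < N + 2 by omega)) e hN.ge,
    ((agree_subst hg' (PowerSeries.map π (PowerSeries.derivative A f))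
      (Nat.lt_succ_self N)).mul_right (Δ g)) e hN.ge, ← map_add]
  congr 1
  rw [map_sum, sum_range_succ' _ (N + 1), sum_range_succ' _ (N + 1), Finset.sum_mul]
  simp only [hmul, hC, map_C, pow_zero, mul_one, PowerSeries.coeff_mk]
  rw [add_right_comm, ← sum_add_distrib]
  congr 1
  refine Finset.sum_congr rfl fun d _ => ?_
  rw [hpow, PowerSeries.coeff_map, PowerSeries.coeff_derivative, map_mul, map_add, map_one,
    map_natCast, map_pow, map_mul (MvPowerSeries.C (σ := τ) (R := B)), map_add, map_one,
    map_natCast]
  ring

/-- The chain rule for a partial derivative. -/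
theorem pderiv_subst [DecidableEq τ] (i : τ) {g : MvPowerSeries τ A} (hg : g.constantCoeff = 0)
    (f : PowerSeries A) :
    pderiv A i (PowerSeries.subst g f) =
      PowerSeries.subst g (PowerSeries.derivative A f) * pderiv A i g := by
  have := chain_rule (RingHom.id A) (pderiv A i).toLinearMap.toAddMonoidHom (fun _ => 0)
    (fun f g => by simp [Derivation.leibniz]) (fun a => by simp)
    (fun N f g h e he => by
      show coeff e (pderiv A i f) = coeff e (pderiv A i g)
      rw [coeff_pderiv, coeff_pderiv, h _ (by rw [map_add, Finsupp.degree_single]; omega)])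
    hg f
  have h0 : (PowerSeries.mk fun _ => (0 : A)) = 0 := by ext; simp
  have h1 : PowerSeries.subst g (0 : PowerSeries A) = 0 :=
    by rw [← PowerSeries.coe_substAlgHom (R := A) (PowerSeries.HasSubst.of_constantCoeff_zero hg)]
       exact map_zero _
  simpa [h0, h1, map_id] using this

/-- Coefficientwise application of an additive map. -/
def mapAdd (D : A →+ B) : MvPowerSeries τ A →+ MvPowerSeries τ B where
  toFun f e := D (coeff e f)
  map_zero' := by ext e; exact map_zero D
  map_add' f g := by
    ext e
    show D (coeff e (f + g)) = D (coeff e f) + D (coeff e g)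
    simp

@[simp] theorem coeff_mapAdd (D : A →+ B) (f : MvPowerSeries τ A) (e : τ →₀ ℕ) :
    coeff e (mapAdd D f) = D (coeff e f) := rfl

theorem mapAdd_mul (π : A →+* B) (D : A →+ B)
    (hD : ∀ a b, D (a * b) = π a * D b + π b * D a) (f g : MvPowerSeries τ A) :
    mapAdd D (f * g) = map π f * mapAdd D g + map π g * mapAdd D f := by
  classical
  ext e
  rw [map_add, coeff_mapAdd, coeff_mul, map_sum, mul_comm (map π g), coeff_mul, coeff_mul,
    ← sum_add_distrib]
  refine Finset.sum_congr rfl fun x _ => ?_
  simp only [hD, coeff_map, coeff_mapAdd]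
  ring

theorem mapAdd_C (D : A →+ B) (a : A) : mapAdd (τ := τ) D (C a) = C (D a) := by
  classical
  ext e
  rw [coeff_mapAdd, coeff_C, coeff_C]
  split_ifs <;> simp

/-- The chain rule for a derivation of the coefficients. -/
theorem mapAdd_subst (π : A →+* B) (D : A →+ B)
    (hD : ∀ a b, D (a * b) = π a * D b + π b * D a)
    {g : MvPowerSeries τ A} (hg : g.constantCoeff = 0) (f : PowerSeries A) :
    mapAdd D (PowerSeries.subst g f) =
      PowerSeries.subst (map π g) (PowerSeries.mk fun d => D (PowerSeries.coeff d f)) +
      PowerSeries.subst (map π g) (PowerSeries.map π (PowerSeries.derivative A f)) *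
        mapAdd D g :=
  chain_rule π (mapAdd D) D (mapAdd_mul π D hD) (mapAdd_C D)
    (fun N f g h e he => by rw [coeff_mapAdd, coeff_mapAdd, h e (by omega)]) hg f

end Vale.Agent.P217.H
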