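import Vale.Agent.P217.Core.CharZero.Closed

/-!
# P217 module H: Teichmüller points and separation of their characters
-/

noncomputable section

namespace Vale.Agent.P217

variable {p n : ℕ} [Fact p.Prime]

namespace H

theorem coef_eq_of_pow_eq (hn : 1 ≤ n) {r s : ℕ} (hs : s < n) (hrs : r ≤ s)
    (h : ∀ a : Coef p n, a ^ p ^ r = a ^ p ^ s) : r = s := by
  classical
  obtain ⟨d, rfl⟩ := Nat.exists_eq_add_of_le hrs
  by_contra hd
  have hd0 : d ≠ 0 := fun h => hd (by omega)
  have hroot : ∀ a : Coef p n, a ^ p ^ d = a := fun a => by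
    have h1 := h a
    rw [pow_add, pow_mul'] at h1
    exact (iterateFrobenius_inj (Coef p n) p r (by simpa [iterateFrobenius_def] using h1.symm))
  have hone : 1 < p ^ d := Nat.one_lt_pow hd0 (Fact.out : p.Prime).one_lt
  have := Fintype.ofFinite (Coef p n)
  set P : Polynomial (Coef p n) := Polynomial.X ^ p ^ d - Polynomial.X with hP
  have hne : P ≠ 0 := FiniteField.X_pow_card_sub_X_ne_zero _ hone
  have hcard := Polynomial.card_roots' P
  rw [hP, FiniteField.X_pow_card_sub_X_natDegree_eq _ hone] at hcard
  have hsub : (Finset.univ : Finset (Coef p n)).card ≤ Multiset.card P.roots := by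
    refine (Finset.card_le_card (t := P.roots.toFinset) fun a _ => ?_).trans
      (Multiset.toFinset_card_le _)
    rw [Multiset.mem_toFinset, Polynomial.mem_roots hne]
    simp [hP, hroot a]
  rw [Finset.card_univ, Fintype.card_eq_nat_card, GaloisField.card p n (by omega)] at hsub
  have := (Nat.pow_le_pow_iff_right (Fact.out : p.Prime).one_lt).1 (hsub.trans hcard)
  omega

namespace Setup

variable (S : Setup p n)

/-- The Teichmüller points. -/
def teich : Coef p n →* S.K :=
  (S.P.x.comp MvPowerSeries.C).toMonoidHom.comp (WittVector.teichmuller p)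

theorem teich_injective : Function.Injective S.teich := by
  intro a b h
  set d := WittVector.teichmuller p a - WittVector.teichmuller p b with hd
  have hz : S.P.x (MvPowerSeries.C d) = 0 := by
    rw [hd, map_sub, map_sub]; exact sub_eq_zero.2 h
  by_cases hd0 : d = 0
  · have := congrArg (fun w : W p n => w.coeff 0) (sub_eq_zero.1 (hd ▸ hd0))
    simpa [WittVector.teichmuller_coeff_zero] using this
  obtain ⟨k, c, hc, hdc⟩ := WittVector.exists_eq_pow_p_mul d hd0
  rw [hdc, map_mul, map_mul, map_pow, map_pow, map_natCast, map_natCast, mul_eq_zero] at hz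
  rcases hz with hz | hz
  · exact absurd hz (pow_ne_zero k S.pK_ne)
  · exact absurd hz
      (((WittVector.isUnit_of_coeff_zero_ne_zero c hc).map MvPowerSeries.C).map S.P.x).ne_zero

theorem norm_teich_pow (a : Coef p n) (k : ℕ) : ‖S.teich a ^ k‖ ≤ 1 := by
  rw [norm_pow]; exact pow_le_one₀ (norm_nonneg _) (S.P.norm_le _)

theorem teich_pow (a : Coef p n) (k m : ℕ) (hn : 1 ≤ n) :
    S.teich a ^ p ^ (k + n * m) = S.teich a ^ p ^ k := by
  induction m with
  | zero => simp
  | succ m ih =>
    have h1 : a ^ p ^ n = a := by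
      have := Fintype.ofFinite (Coef p n)
      conv_rhs => rw [← FiniteField.pow_card a]
      rw [Fintype.card_eq_nat_card, GaloisField.card p n (by omega)]
    rw [show k + n * (m + 1) = n + (k + n * m) by ring, pow_add, pow_mul, ← map_pow, h1, ih]

/-- The characters `a ↦ [a] ^ (p ^ (r + i))`, `r < n`, are linearly independent. -/
theorem char_sep (hn : 1 ≤ n) (i : ℕ) (β : Fin n → S.K)
    (h : ∀ a : Coef p n, ∑ r : Fin n, β r * S.teich a ^ p ^ ((r : ℕ) + i) = 0) (r : Fin n) :
    β r = 0 := by
  let χ : Fin n → (Coef p n →* S.K) := fun r =>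
    (powMonoidHom (p ^ ((r : ℕ) + i))).comp S.teich
  have hχ : Function.Injective χ := by
    intro r s h
    apply Fin.ext
    have hpow : ∀ a : Coef p n, a ^ p ^ (r : ℕ) = a ^ p ^ (s : ℕ) := fun a => by
      have h1 := DFunLike.congr_fun h a
      simp only [χ, MonoidHom.comp_apply, powMonoidHom_apply, ← map_pow] at h1
      have h2 := S.teich_injective h1
      rw [pow_add, pow_add, pow_mul, pow_mul] at h2
      exact iterateFrobenius_inj (Coef p n) p i (by simpa [iterateFrobenius_def] using h2)
    rcases le_total (r : ℕ) s with hrs | hrs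
    · exact coef_eq_of_pow_eq hn s.2 hrs hpow
    · exact (coef_eq_of_pow_eq hn r.2 hrs fun a => (hpow a).symm).symm
  refine Fintype.linearIndependent_iff.1
    ((linearIndependent_monoidHom (Coef p n) S.K).comp χ hχ) β (funext fun a => ?_) r
  rw [Finset.sum_apply]
  exact h a

end Setup

end H

end Vale.Agent.P217
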