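import Vale.Agent.P217.Core.CharZero.Transport

/-!
# P217 module H: a nonzero prime not containing `p` is not closed under the partial derivatives
-/

noncomputable section

namespace Vale.Agent.P217.H

open MvPowerSeries

variable {p n : ℕ} [Fact p.Prime]

/-- The Euler operator. -/
def euler (f : E0 p n) : E0 p n := ∑ i, X i * pderiv (W p n) i f

theorem coeff_euler (f : E0 p n) (d : Fin (n - 1) →₀ ℕ) :
    coeff d (euler f) = (d.degree : W p n) * coeff d f := by
  classical
  rw [euler, map_sum, Finsupp.degree_eq_sum, Nat.cast_sum, Finset.sum_mul]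
  refine Finset.sum_congr rfl fun i _ => ?_
  rw [X, coeff_monomial_mul]
  by_cases h : Finsupp.single i 1 ≤ d
  · rw [if_pos h, one_mul, coeff_pderiv, tsub_add_cancel_of_le h]
    have h1 := Finsupp.single_le_iff.1 h
    rw [Finsupp.tsub_apply, Finsupp.single_eq_same, Nat.cast_sub h1]
    ring
  · rw [if_neg h, show d i = 0 by rw [Finsupp.single_le_iff] at h; omega]
    simp

/-- Series without terms of degree `< N` lie in the `N`-th power of the maximal ideal. -/
theorem mem_max_pow (N : ℕ) (a : E0 p n) (h : ∀ d : Fin (n - 1) →₀ ℕ, d.degree < N → coeff d a = 0) :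
    a ∈ 𝔪 p n ^ N := by
  induction N generalizing a with
  | zero => simp
  | succ N ih =>
    have h0 : constantCoeff a = 0 := by
      rw [← coeff_zero_eq_constantCoeff_apply]; exact h 0 (by simp)
    have hb' : a = ∑ i, X i * leastPart a i := by
      conv_lhs => rw [eq_C_add_sum_leastPart a, h0, map_zero, zero_add]
    rw [hb', pow_succ']
    refine Submodule.sum_mem _ fun i _ => Ideal.mul_mem_mul ?_ (ih _ fun e he => ?_)
    · rw [IsLocalRing.mem_maximalIdeal, mem_nonunits_iff, isUnit_iff_constantCoeff]; simp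
    · classical
      rw [coeff_leastPart]
      split_ifs
      · exact h _ (by rw [map_add, Finsupp.degree_single]; omega)
      · rfl

/-- The factor of degree `k` after the first `N` Euler steps, divided by `N!`. -/
def eulerCoef (N k : ℕ) : ℤ := if k = 0 then 1 else (-1) ^ N * ((k - 1).choose N : ℤ)

theorem eulerCoef_succ (N k : ℕ) :
    ((N : ℤ) + 1) * eulerCoef (N + 1) k = ((N : ℤ) + 1 - k) * eulerCoef N k := by
  unfold eulerCoef
  rcases k with _ | k
  · simp
  rw [if_neg k.succ_ne_zero, if_neg k.succ_ne_zero, Nat.add_sub_cancel]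
  rcases le_or_gt N k with h | h
  · have h1 := congrArg (Nat.cast : ℕ → ℤ) (Nat.choose_succ_right_eq k N)
    push_cast [Nat.cast_sub h] at h1 ⊢
    rw [pow_succ]
    linear_combination -((-1 : ℤ) ^ N) * h1
  · simp [Nat.choose_eq_zero_of_lt h, Nat.choose_eq_zero_of_lt (h.trans N.lt_succ_self)]

/-- A nonzero prime not containing `p` has an element with a derivative outside it. -/
theorem exists_pderiv_not_mem (P : Point p n) {I : Ideal (E0 p n)} [I.IsPrime]
    (hker : RingHom.ker P.x = I) (hp : (p : E0 p n) ∉ I) (hI : I ≠ ⊥) :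
    ∃ f ∈ I, ∃ i, pderiv (W p n) i f ∉ I := by
  classical
  by_contra hcon
  push Not at hcon
  have hx : ∀ a, a ∈ I ↔ P.x a = 0 := fun a => by rw [← hker, RingHom.mem_ker]
  obtain ⟨S, rfl⟩ := exists_setup P (fun h => hp ((hx _).2 h))
  have := S.charZero
  have hnat : ∀ m : ℕ, m ≠ 0 → (m : E0 p n) ∉ I := fun m hm h => by
    rw [hx, map_natCast] at h
    exact hm (Nat.cast_eq_zero.1 h)
  have hd : ∀ f ∈ I, ∀ d : Fin (n - 1) →₀ ℕ,
      ∀ N, d.degree = N → ∃ g ∈ I, ∃ m : ℕ, m ≠ 0 ∧
        constantCoeff g = (m : W p n) * coeff d f := by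
    intro f hf d N
    induction N generalizing d f with
    | zero =>
      intro hN
      refine ⟨f, hf, 1, one_ne_zero, ?_⟩
      rw [(Finsupp.degree_eq_zero_iff d).1 hN, coeff_zero_eq_constantCoeff_apply, Nat.cast_one,
        one_mul]
    | succ N ih =>
      intro hN
      have hne : d ≠ 0 := fun h => by simp [h] at hN
      obtain ⟨i, hi⟩ := Finsupp.ne_iff.1 hne
      simp only [Finsupp.coe_zero, Pi.zero_apply] at hi
      have hle : Finsupp.single i 1 ≤ d := Finsupp.single_le_iff.2 (Nat.one_le_iff_ne_zero.2 hi)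
      have hdeg : (d - Finsupp.single i 1).degree = N := by
        have := congrArg Finsupp.degree (tsub_add_cancel_of_le hle)
        rw [map_add, Finsupp.degree_single, hN] at this
        omega
      obtain ⟨g, hg, m, hm, hgc⟩ := ih (pderiv (W p n) i f) (hcon f hf i) _ hdeg
      refine ⟨g, hg, m * d i, Nat.mul_ne_zero hm hi, ?_⟩
      rw [hgc, coeff_pderiv, tsub_add_cancel_of_le hle, Finsupp.tsub_apply,
        Finsupp.single_eq_same, Nat.cast_sub (Nat.one_le_iff_ne_zero.2 hi)]
      push_cast
      ring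
  obtain ⟨f, hf, hf0⟩ := Submodule.exists_mem_ne_zero_of_ne_bot hI
  obtain ⟨d, hfd⟩ : ∃ d, coeff d f ≠ 0 := by
    by_contra h
    push Not at h
    exact hf0 (MvPowerSeries.ext fun d => by simpa using h d)
  obtain ⟨g, hg, m, hm, hgc⟩ := hd f hf d _ rfl
  have hg0 : constantCoeff g ≠ 0 := by
    rw [hgc]
    refine mul_ne_zero (fun h => hnat m hm ?_) hfd
    rw [← map_natCast (MvPowerSeries.C (σ := Fin (n - 1)) (R := W p n)), h, map_zero]
    exact zero_mem _
  let h : ℕ → E0 p n := fun N e => (eulerCoef N e.degree : W p n) * coeff e g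
  have hh : ∀ N e, coeff e (h N) = (eulerCoef N e.degree : W p n) * coeff e g := fun N e => rfl
  have hmem : ∀ N, h N ∈ I := by
    intro N
    induction N with
    | zero =>
      have : h 0 = g := by
        ext e
        rw [hh, eulerCoef]
        split_ifs <;> simp
      rwa [this]
    | succ N ih =>
      refine (‹I.IsPrime›.mem_or_mem ?_).resolve_left (hnat (N + 1) N.succ_ne_zero)
      have e : ((N + 1 : ℕ) : E0 p n) * h (N + 1) =
          ((N + 1 : ℕ) : E0 p n) * h N - euler (h N) := by
        refine MvPowerSeries.ext fun e => ?_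
        rw [map_sub, coeff_euler, ← map_natCast (MvPowerSeries.C (σ := Fin (n - 1)) (R := W p n)),
          coeff_C_mul, coeff_C_mul, hh, hh]
        have := congrArg (Int.cast : ℤ → W p n) (eulerCoef_succ N e.degree)
        push_cast at this ⊢
        linear_combination (MvPowerSeries.coeff e g) * this
      rw [e]
      exact sub_mem (Ideal.mul_mem_left _ _ ih)
        (Submodule.sum_mem _ fun i _ => Ideal.mul_mem_left _ _ (hcon _ ih i))
  have hsmall : ∀ N, ‖S.P.x (MvPowerSeries.C (constantCoeff g))‖ ≤ S.ρ ^ (N + 1) := by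
    intro N
    have h1 : MvPowerSeries.C (constantCoeff g) - h N ∈ 𝔪 p n ^ (N + 1) := by
      refine mem_max_pow _ _ fun e he => ?_
      rw [map_sub, hh, coeff_C, eulerCoef]
      by_cases he0 : e = 0
      · subst he0; simp [coeff_zero_eq_constantCoeff_apply]
      · have : e.degree ≠ 0 := fun h => he0 ((Finsupp.degree_eq_zero_iff e).1 h)
        rw [if_neg he0, if_neg this, Nat.choose_eq_zero_of_lt (by omega)]
        simp
    have := S.norm_x_pow h1
    rwa [map_sub, (hx _).1 (hmem N), sub_zero] at this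
  have hz : S.P.x (MvPowerSeries.C (constantCoeff g)) = 0 := by
    exact norm_eq_zero.1 (le_antisymm (ge_of_tendsto'
      ((tendsto_pow_atTop_nhds_zero_of_lt_one S.ρ_pos.le S.ρ_lt).comp
        (Filter.tendsto_add_atTop_nat 1)) hsmall) (norm_nonneg _))
  obtain ⟨k, b, hb, hgb⟩ := WittVector.exists_eq_pow_p_mul (constantCoeff g) hg0
  rw [hgb, map_mul, map_mul, map_pow, map_pow, map_natCast, map_natCast, mul_eq_zero] at hz
  rcases hz with hz | hz
  · exact pow_ne_zero k S.pK_ne hz
  · exact (((WittVector.isUnit_of_coeff_zero_ne_zero b hb).map MvPowerSeries.C).map S.P.x).ne_zero hz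

end Vale.Agent.P217.H
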