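import Vale.Agent.P217.Core.CharZero.Move

/-!
# P217 module H: the first-order direction of a test automorphism is tangent

If `δ` is the displacement of the moved point then `‖δ‖ = O(π ^ q)`, `δ` is `p ^ q` times the
direction attached to `y' r = [a] ^ (p ^ (r + i)) Λ (r + i)` up to `O(π ^ (2 q))`, and the
derivative of `f₀` along `δ` is `O(π ^ (2 q))`.
-/

noncomputable section

namespace Vale.Agent.P217.H

open Filter Topology

variable {p n : ℕ} [Fact p.Prime] {F : FormalGroup (E0 p n)} {S : Setup p n}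

/-- The direction attached to `a` and `i`. -/
def Frame.dir (T : Frame S) (a : Coef p n) (i : ℕ) : Fin n → S.K := fun r =>
  S.teich a ^ p ^ ((r : ℕ) + i) * T.Λ ((r : ℕ) + i)

/-- The sum of the constants of the first `2 n` periods. -/
def Setup.cstSum (S : Setup p n) (hn : 1 ≤ n) : ℝ := ∑ k ∈ Finset.range (2 * n), S.cst hn k

theorem Setup.cst_le (S : Setup p n) (hn : 1 ≤ n) {k : ℕ} (hk : k < 2 * n) :
    S.cst hn k ≤ S.cstSum hn :=
  Finset.single_le_sum (fun j _ => (S.cst_pos hn j).le) (Finset.mem_range.2 hk)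

theorem Setup.cstSum_nonneg (S : Setup p n) (hn : 1 ≤ n) : 0 ≤ S.cstSum hn :=
  Finset.sum_nonneg fun k _ => (S.cst_pos hn k).le

section

variable {T : Frame S} {hn : 1 ≤ n} {f₀ : E0 p n} {a : Coef p n} {i q N : ℕ}

theorem Move.δ_small (m : Move T hn f₀ a i q N) (hi : i < n)
    (hN : T.Ci * (S.cstSum hn / S.ρ ^ 2) * S.ρ ^ N ≤ 1 / 2) :
    ‖m.δ‖ ≤ 2 * (T.Ci * S.cstSum hn) * S.π ^ q := by
  have hCi := T.Ci_nonneg
  have hCm := S.cstSum_nonneg hn
  have hρ := S.ρ_pos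
  have h1 := T.inv_bound (m.c - 1, m.δ)
    (S.π ^ q * S.cstSum hn + ‖m.δ‖ ^ 2 * (S.cstSum hn / S.ρ ^ 2)) fun r => by
      rw [m.e_eq]
      refine (_root_.norm_add_le _ _).trans (add_le_add ?_ ((m.R_le _).trans ?_))
      · rw [norm_mul, norm_mul, norm_pow, Setup.π]
        exact mul_le_mul_of_nonneg_left ((mul_le_of_le_one_left (norm_nonneg _)
          (S.norm_teich_pow a _)).trans ((m.Λ'_le _).trans (S.cst_le hn (by omega)))) (by positivity)
      · rw [div_mul_eq_mul_div, ← mul_div_assoc]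
        exact div_le_div_of_nonneg_right
          (mul_le_mul_of_nonneg_left (S.cst_le hn (by omega)) (by positivity)) (by positivity)
  have h2 : T.Ci * (S.cstSum hn / S.ρ ^ 2) * ‖m.δ‖ ≤ 1 / 2 :=
    (mul_le_mul_of_nonneg_left m.δ_le (by positivity)).trans hN
  have h3 := mul_le_mul_of_nonneg_right h2 (norm_nonneg m.δ)
  linear_combination 2 * h1 + 2 * h3

/-- The bound for the difference of the periods. -/
theorem Move.periods_close (m : Move T hn f₀ a i q N) {C₁ : ℝ} (hC₁ : 0 ≤ C₁)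
    (hδ : ‖m.δ‖ ≤ C₁ * S.π ^ q) {k : ℕ} (hk : k < 2 * n) :
    ‖m.Λ' k - T.Λ k‖ ≤
      (C₁ ^ 2 * (S.cstSum hn / S.ρ ^ 2) + C₁ * (S.cstSum hn / S.ρ)) * S.π ^ q := by
  have hCm := S.cstSum_nonneg hn
  have hρ := S.ρ_pos
  have hπ := S.π_pos
  have hπq : S.π ^ q ≤ 1 := pow_le_one₀ hπ.le S.π_lt.le
  rw [m.R_eq, add_mul]
  refine (_root_.norm_add_le _ _).trans (add_le_add ((m.R_le k).trans ?_) ((m.D_le k).trans ?_))
  · calc ‖m.δ‖ ^ 2 / S.ρ ^ 2 * S.cst hn k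
        ≤ (C₁ * S.π ^ q) ^ 2 / S.ρ ^ 2 * S.cstSum hn :=
          mul_le_mul (div_le_div_of_nonneg_right (pow_le_pow_left₀ (norm_nonneg _) hδ 2)
            (by positivity)) (S.cst_le hn hk) (S.cst_pos hn k).le (by positivity)
      _ = C₁ ^ 2 * (S.cstSum hn / S.ρ ^ 2) * (S.π ^ q * S.π ^ q) := by ring
      _ ≤ C₁ ^ 2 * (S.cstSum hn / S.ρ ^ 2) * S.π ^ q :=
          mul_le_mul_of_nonneg_left (mul_le_of_le_one_left (by positivity) hπq) (by positivity)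
  · calc ‖m.δ‖ / S.ρ * S.cst hn k ≤ C₁ * S.π ^ q / S.ρ * S.cstSum hn :=
          mul_le_mul (div_le_div_of_nonneg_right hδ hρ.le) (S.cst_le hn hk)
            (S.cst_pos hn k).le (by positivity)
      _ = _ := by ring

/-- The derivative in the direction `dir` is `O(π ^ q)`. -/
theorem Move.ψ_small (m : Move T hn f₀ a i q N) (hi : i < n) {C₁ C₂ : ℝ}
    (hδ : ‖m.δ‖ ≤ C₁ * S.π ^ q)
    (hdiff : ∀ k < 2 * n, ‖m.Λ' k - T.Λ k‖ ≤ C₂ * S.π ^ q) :
    ‖T.ψ f₀ (T.dir a i)‖ ≤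
      (T.Ci * (C₂ + C₁ ^ 2 * (S.cstSum hn / S.ρ ^ 2)) + C₁ ^ 2) * S.π ^ q := by
  have hCm := S.cstSum_nonneg hn
  have hρ := S.ρ_pos
  have hπ := S.π_pos
  have hδ2 : ‖m.δ‖ ^ 2 ≤ C₁ ^ 2 * (S.π ^ q) ^ 2 := by
    rw [← mul_pow]; exact pow_le_pow_left₀ (norm_nonneg _) hδ 2
  set y := T.dir a i with hy
  have hz := T.inv_bound ((m.c - 1, m.δ) - (p : S.K) ^ q • T.e.symm y)
    ((C₂ + C₁ ^ 2 * (S.cstSum hn / S.ρ ^ 2)) * (S.π ^ q) ^ 2) fun r => by
      rw [map_sub, map_smul, T.e.apply_symm_apply, Pi.sub_apply, Pi.smul_apply, m.e_eq,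
        smul_eq_mul, hy, Frame.dir]
      rw [show ∀ A B C w : S.K, A * (w * B) + m.R r - A * (w * C) = A * (w * (B - C)) + m.R r from
        fun _ _ _ _ => by ring]
      refine (_root_.norm_add_le _ _).trans ?_
      rw [norm_mul, norm_mul, norm_pow, add_mul]
      refine add_le_add ?_ ((m.R_le _).trans ?_)
      · calc S.π ^ q * (‖S.teich a ^ _‖ * ‖_‖) ≤ S.π ^ q * (1 * (C₂ * S.π ^ q)) :=
              mul_le_mul_of_nonneg_left (mul_le_mul (S.norm_teich_pow a _) (hdiff _ (by omega))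
                (norm_nonneg _) zero_le_one) (by positivity)
          _ = _ := by ring
      · calc ‖m.δ‖ ^ 2 / S.ρ ^ 2 * S.cst hn r
            ≤ C₁ ^ 2 * (S.π ^ q) ^ 2 / S.ρ ^ 2 * S.cstSum hn :=
              mul_le_mul (div_le_div_of_nonneg_right hδ2 (by positivity))
                (S.cst_le hn (by omega)) (S.cst_pos hn r).le (by positivity)
          _ = _ := by ring
  have hlin : (p : S.K) ^ q * T.ψ f₀ y =
      S.D₀ m.δ f₀ - S.D₀ ((m.c - 1, m.δ) - (p : S.K) ^ q • T.e.symm y).2 f₀ := by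
    simp only [T.ψ_apply, S.D₀_apply, Prod.snd_sub, Prod.smul_snd, Pi.sub_apply, Pi.smul_apply,
      smul_eq_mul, Finset.mul_sum, ← Finset.sum_sub_distrib]
    exact Finset.sum_congr rfl fun j _ => by ring
  have hfin : S.π ^ q * ‖T.ψ f₀ y‖ ≤
      S.π ^ q * ((T.Ci * (C₂ + C₁ ^ 2 * (S.cstSum hn / S.ρ ^ 2)) + C₁ ^ 2) * S.π ^ q) := by
    rw [Setup.π, ← norm_pow, ← norm_mul, hlin, norm_pow]
    refine (norm_sub_le _ _).trans ((add_le_add (m.f₀_le.trans hδ2)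
      ((S.norm_D₀ _ _).trans hz)).trans_eq ?_)
    simp only [Setup.π]
    ring
  exact le_of_mul_le_mul_left hfin (by positivity)

end

/-- The derivative of `f₀` in every direction `dir a i` vanishes. -/
theorem Frame.ψ_dir (hF : IsHazewinkel p n F) [F.IsComm] (hn : 1 ≤ n) (T : Frame S)
    {I : Ideal (E0 p n)} (hI : ∀ a, a ∈ I ↔ S.P.x a = 0) (hinv : IsNearInvariant p n F I)
    {f₀ : E0 p n} (hf₀ : f₀ ∈ I) (a : Coef p n) {i : ℕ} (hi : i < n) :
    T.ψ f₀ (T.dir a i) = 0 := by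
  have hCi := T.Ci_nonneg
  have hCm := S.cstSum_nonneg hn
  have hρ := S.ρ_pos
  obtain ⟨N, hN⟩ := exists_pow_lt_of_lt_one
    (show 0 < 1 / (2 * (T.Ci * (S.cstSum hn / S.ρ ^ 2) + 1)) by positivity) S.ρ_lt
  have hN' : T.Ci * (S.cstSum hn / S.ρ ^ 2) * S.ρ ^ N ≤ 1 / 2 := by
    refine (mul_le_mul_of_nonneg_left hN.le (by positivity)).trans ?_
    rw [mul_one_div, div_le_iff₀ (by positivity)]
    linarith [show 0 ≤ T.Ci * (S.cstSum hn / S.ρ ^ 2) by positivity]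
  obtain ⟨M₀, hM₀⟩ := exists_move hF hn T hI hinv hf₀ a hi N
  set C₁ := 2 * (T.Ci * S.cstSum hn) with hC₁
  set C₂ := C₁ ^ 2 * (S.cstSum hn / S.ρ ^ 2) + C₁ * (S.cstSum hn / S.ρ)
  refine norm_eq_zero.1 (le_antisymm (ge_of_tendsto
    (by simpa using (tendsto_pow_atTop_nhds_zero_of_lt_one S.π_pos.le S.π_lt).const_mul
          (T.Ci * (C₂ + C₁ ^ 2 * (S.cstSum hn / S.ρ ^ 2)) + C₁ ^ 2))
    (eventually_atTop.2 ⟨M₀, fun q hq => ?_⟩)) (norm_nonneg _))
  obtain ⟨m⟩ := hM₀ q hq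
  exact m.ψ_small hi (m.δ_small hi hN')
    fun k hk => m.periods_close (by positivity) (m.δ_small hi hN') hk

end Vale.Agent.P217.H
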