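import Vale.Agent.P217.Core.CharZero.Chars

/-!
# P217 module H: the invertible matrix of periods and derivatives of periods
-/

noncomputable section

namespace Vale.Agent.P217.H

open Filter Topology

variable {p n : ℕ} [Fact p.Prime]

/-- The periods `Λ`, their derivatives `dΛ` and the linear isomorphism they define. -/
structure Frame (S : Setup p n) where
  /-- the periods -/
  Λ : ℕ → S.K
  /-- their derivatives -/
  dΛ : Fin (n - 1) → ℕ → S.K
  tΛ : ∀ k, Tendsto (fun Q => S.xK (G p n k Q)) atTop (𝓝 (Λ k))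
  tD : ∀ v k, Tendsto (fun Q => S.D v (G p n k Q)) atTop (𝓝 (∑ i, v i * dΛ i k))
  /-- a complete subfield containing the image of the Lubin-Tate ring -/
  L : Subfield S.K
  hL : IsComplete (L : Set S.K)
  hLx : ∀ a, S.P.x a ∈ L
  /-- the isomorphism -/
  e : (S.K × (Fin (n - 1) → S.K)) ≃ₗ[S.K] (Fin n → S.K)
  e_apply : ∀ z r, e z r = z.1 * Λ r - ∑ i, z.2 i * dΛ i r

theorem Setup.exists_frame {F : FormalGroup (E0 p n)} (S : Setup p n) (hF : IsHazewinkel p n F)
    [F.IsComm] (hn : 1 ≤ n) : Nonempty (Frame S) := by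
  classical
  obtain ⟨L, hL, hLx, -⟩ := S.P.complete_gen ∅
  have hLxK : ∀ a, S.xK.toAddMonoidHom (ι p n a) ∈ L := fun a => by
    simpa [S.xK_ι] using hLx a
  have hLD : ∀ (i : Fin (n - 1)) a, S.D (Pi.single i 1) (ι p n a) ∈ L := fun i a => by
    rw [S.D_ι, S.D₀_apply]
    refine L.sum_mem fun j _ => L.mul_mem ?_ (hLx _)
    rcases eq_or_ne j i with rfl | h
    · simp [L.one_mem]
    · simp [h, L.zero_mem]
  set Λ := fun k => S.Lam S.xK.toAddMonoidHom k
  set dΛ := fun i k => S.Lam (S.D (Pi.single i 1)) k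
  have tΛ : ∀ k, Tendsto (fun Q => S.xK (G p n k Q)) atTop (𝓝 (Λ k)) := fun k =>
    S.tendsto_Lam hn S.bd_xK hL hLxK k
  have tD : ∀ v k, Tendsto (fun Q => S.D v (G p n k Q)) atTop (𝓝 (∑ i, v i * dΛ i k)) := by
    intro v k
    simp_rw [S.D_eq_sum v]
    exact tendsto_finsetSum _ fun i _ =>
      (S.tendsto_Lam hn (S.bd_D _) hL (hLD i) k).const_mul (v i)
  let M : (S.K × (Fin (n - 1) → S.K)) →ₗ[S.K] (Fin n → S.K) :=
    { toFun := fun z r => z.1 * Λ r - ∑ i, z.2 i * dΛ i r
      map_add' := fun z w => by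
        ext r
        simp [add_mul, Finset.sum_add_distrib]
        ring
      map_smul' := fun c z => by
        ext r
        simp [mul_sub, Finset.mul_sum, mul_assoc] }
  have hMinj : Function.Injective M := by
    rw [injective_iff_map_eq_zero]
    rintro ⟨ε, v⟩ h
    obtain ⟨hv, hε⟩ := S.eq_zero_of_periods hF hn v ε fun k hk => by
      have h1 : ε * Λ k - ∑ i, v i * dΛ i k = 0 := congrFun h ⟨k, hk⟩
      have := (tD v k).sub ((tΛ k).const_mul ε)
      rwa [← neg_sub, h1, neg_zero] at this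
    simp [hv, hε]
  have hMsurj : Function.Surjective M :=
    (LinearMap.injective_iff_surjective_of_finrank_eq_finrank (by simp; omega)).1 hMinj
  exact ⟨⟨Λ, dΛ, tΛ, tD, L, hL, hLx, LinearEquiv.ofBijective M ⟨hMinj, hMsurj⟩,
    fun z r => rfl⟩⟩

namespace Frame

variable {S : Setup p n} (T : Frame S)

/-- The norm of the inverse of the isomorphism. -/
def Ci : ℝ := ∑ r, ‖T.e.symm (Pi.single r 1)‖

theorem Ci_nonneg : 0 ≤ T.Ci := Finset.sum_nonneg fun _ _ => norm_nonneg _

theorem inv_bound (z : S.K × (Fin (n - 1) → S.K)) (Y : ℝ) (hY : ∀ r, ‖T.e z r‖ ≤ Y) :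
    ‖z.2‖ ≤ T.Ci * Y := by
  have hz : z = ∑ r, T.e z r • T.e.symm (Pi.single r 1) := by
    conv_lhs => rw [← T.e.symm_apply_apply z, pi_eq_sum_univ' (T.e z), map_sum]
    simp [map_smul]
  refine (norm_snd_le z).trans ?_
  conv_lhs => rw [hz]
  rw [Ci, Finset.sum_mul]
  refine (norm_sum_le _ _).trans (Finset.sum_le_sum fun r _ => ?_)
  rw [norm_smul, mul_comm]
  exact mul_le_mul_of_nonneg_left (hY r) (norm_nonneg _)

/-- The derivative of `f₀` in the direction whose image under the isomorphism is the argument. -/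
def ψ (f₀ : E0 p n) : (Fin n → S.K) →ₗ[S.K] S.K where
  toFun y := S.D₀ (T.e.symm y).2 f₀
  map_add' y y' := by simp [S.D₀_apply, add_mul, Finset.sum_add_distrib]
  map_smul' c y := by simp [S.D₀_apply, Finset.mul_sum, mul_assoc]

theorem ψ_apply (f₀ : E0 p n) (y : Fin n → S.K) : T.ψ f₀ y = S.D₀ (T.e.symm y).2 f₀ := rfl

end Frame

end Vale.Agent.P217.H
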