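import Vale.Agent.P217.Core.CharZero.Period
import Vale.Agent.P217.LT.Heights

/-!
# P217 module H: derivations at a point and the second order expansion at a moved point
-/

noncomputable section

namespace Vale.Agent.P217.H

open MvPowerSeries

variable {p n : ℕ} [Fact p.Prime]

/-- The part of a series divided by the `i`-th variable, if it is the least one occurring. -/
def leastPart {s R : Type*} [LinearOrder s] [CommRing R] (a : MvPowerSeries s R) (i : s) :
    MvPowerSeries s R :=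
  open scoped Classical in
  fun e => if ∀ j < i, e j = 0 then coeff (e + Finsupp.single i 1) a else 0

open scoped Classical in
theorem coeff_leastPart {s R : Type*} [LinearOrder s] [CommRing R] (a : MvPowerSeries s R) (i : s)
    (e : s →₀ ℕ) : coeff e (leastPart a i) =
      if ∀ j < i, e j = 0 then coeff (e + Finsupp.single i 1) a else 0 := by
  rfl

/-- A series is its constant term plus a combination of the variables. -/
theorem eq_C_add_sum_leastPart {s R : Type*} [Fintype s] [LinearOrder s] [CommRing R]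
    (a : MvPowerSeries s R) : a = C (constantCoeff a) + ∑ i, X i * leastPart a i := by
  classical
  ext d
  rw [map_add, map_sum, coeff_C]
  by_cases hd : d = 0
  · subst hd
    rw [if_pos rfl, Finset.sum_eq_zero, add_zero, coeff_zero_eq_constantCoeff_apply]
    intro i _
    simp [coeff_zero_eq_constantCoeff_apply]
  · have hs : d.support.Nonempty := Finsupp.support_nonempty_iff.2 hd
    set m := d.support.min' hs with hm
    have hdm : d m ≠ 0 := Finsupp.mem_support_iff.1 (Finset.min'_mem _ hs)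
    have hlt : ∀ j < m, d j = 0 := fun j hj => by
      by_contra h
      exact absurd (Finset.min'_le _ j (Finsupp.mem_support_iff.2 h)) (not_le.2 hj)
    rw [if_neg hd, zero_add, Finset.sum_eq_single m]
    · rw [X, coeff_monomial_mul, if_pos (by rw [Finsupp.single_le_iff]; omega), one_mul,
        coeff_leastPart, if_pos fun j hj => by simp [hlt j hj],
        tsub_add_cancel_of_le (Finsupp.single_le_iff.2 (Nat.one_le_iff_ne_zero.2 hdm))]
    · intro i _ hi
      rw [X, coeff_monomial_mul]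
      split_ifs with h
      · rw [one_mul, coeff_leastPart]
        refine if_neg fun h' => ?_
        rcases lt_or_gt_of_ne hi with h1 | h1
        · have := Finsupp.single_le_iff.1 h
          rw [hlt i h1] at this; omega
        · exact hdm (by simpa [Finsupp.single_eq_of_ne hi.symm] using h' m h1)
      · rfl
    · simp

namespace Setup

variable (S : Setup p n)

/-- A map with a product rule and a uniform bound decays on the powers of the maximal ideal. -/
theorem bound_of_leibniz (D : E0 p n →+ S.K) (α β : E0 p n → S.K) {A : ℝ}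
    (hα : ∀ N, ∀ a ∈ 𝔪 p n ^ N, ‖α a‖ ≤ S.ρ ^ N)
    (hβ : ∀ N, ∀ a ∈ 𝔪 p n ^ N, ‖β a‖ ≤ S.ρ ^ N)
    (hD : ∀ y z, D (y * z) = α y * D z + β z * D y) (hA : ∀ a, ‖D a‖ ≤ A) :
    ∀ N, ∀ a ∈ 𝔪 p n ^ N, ‖D a‖ ≤ A / S.ρ * S.ρ ^ N := by
  have hρ := S.ρ_pos
  have hA0 : 0 ≤ A := (norm_nonneg _).trans (hA 0)
  intro N
  induction N with
  | zero =>
    intro a _
    rw [pow_zero, mul_one]
    exact (hA a).trans (le_div_self hA0 hρ S.ρ_lt.le)
  | succ N ih =>
    intro a ha
    rw [pow_succ] at ha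
    induction ha using Submodule.mul_induction_on' with
    | mem_mul_mem y hy z hz =>
      rw [hD]
      refine (IsUltrametricDist.norm_add_le_max _ _).trans (max_le ?_ ?_) <;> rw [norm_mul]
      · refine (mul_le_mul (hα N y hy) (hA z) (norm_nonneg _) (by positivity)).trans_eq ?_
        field_simp; ring
      · have hz1 := hβ 1 z (by simpa using hz)
        refine (mul_le_mul hz1 (ih y hy) (norm_nonneg _) (by positivity)).trans_eq ?_
        ring
    | add y _ z _ hy hz =>
      rw [map_add]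
      exact (IsUltrametricDist.norm_add_le_max _ _).trans (max_le hy hz)

variable (v : Fin (n - 1) → S.K)

/-- The derivative at the point in the direction `v`. -/
def D₀ : E0 p n →+ S.K where
  toFun a := ∑ i, v i * S.P.x (pderiv (W p n) i a)
  map_zero' := by simp
  map_add' a b := by simp [mul_add, Finset.sum_add_distrib]

theorem D₀_apply (a : E0 p n) : S.D₀ v a = ∑ i, v i * S.P.x (pderiv (W p n) i a) := rfl

theorem D₀_mul (a b : E0 p n) :
    S.D₀ v (a * b) = S.P.x a * S.D₀ v b + S.P.x b * S.D₀ v a := by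
  simp only [D₀_apply, Finset.mul_sum, ← Finset.sum_add_distrib]
  refine Finset.sum_congr rfl fun i _ => ?_
  rw [Derivation.leibniz, smul_eq_mul, smul_eq_mul, map_add, map_mul, map_mul]
  ring

theorem norm_D₀ (a : E0 p n) : ‖S.D₀ v a‖ ≤ ‖v‖ := by
  rw [D₀_apply]
  exact IsUltrametricDist.norm_sum_le_of_forall_le_of_nonneg (norm_nonneg _) fun i _ => by
    rw [norm_mul]
    exact (mul_le_of_le_one_right (norm_nonneg _) (S.P.norm_le _)).trans (norm_le_pi_norm v i)

theorem bd_D₀ (N : ℕ) (a : E0 p n) (ha : a ∈ 𝔪 p n ^ N) :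
    ‖S.D₀ v a‖ ≤ ‖v‖ / S.ρ * S.ρ ^ N :=
  S.bound_of_leibniz (S.D₀ v) S.P.x S.P.x (fun _ _ h => S.norm_x_pow h)
    (fun _ _ h => S.norm_x_pow h) (S.D₀_mul v) (S.norm_D₀ v) N a ha

/-- The point with values in the dual numbers. -/
def dual : E0 p n →+* TrivSqZeroExt S.K S.K where
  toFun a := TrivSqZeroExt.inl (S.P.x a) + TrivSqZeroExt.inr (S.D₀ v a)
  map_one' := by ext <;> simp [D₀_apply]
  map_zero' := by ext <;> simp
  map_add' a b := by ext <;> simp
  map_mul' a b := by
    ext
    · simp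
    · simp [TrivSqZeroExt.snd_mul, D₀_mul, mul_comm]

theorem isUnit_dual_p : IsUnit (S.dual v (p : E0 p n)) := by
  rw [TrivSqZeroExt.isUnit_iff_isUnit_fst]
  simpa [dual] using S.isUnit_x_p

/-- The dual-number point on `E0[1/p]`. -/
def dualK : E0inv p n →+* TrivSqZeroExt S.K S.K :=
  IsLocalization.Away.lift (p : E0 p n) (S.isUnit_dual_p v)

theorem fst_dualK (z : E0inv p n) : (S.dualK v z).fst = S.xK z := by
  have h : (TrivSqZeroExt.fstHom S.K S.K S.K).toRingHom.comp (S.dualK v) = S.xK :=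
    IsLocalization.ringHom_ext (Submonoid.powers (p : E0 p n)) (RingHom.ext fun a => by
      show (S.dualK v (ι p n a)).fst = S.xK (ι p n a)
      rw [S.xK_ι, dualK, ι, IsLocalization.Away.lift_eq]
      simp [dual])
  exact RingHom.congr_fun h z

/-- The derivative on `E0[1/p]`. -/
def D : E0inv p n →+ S.K where
  toFun z := (S.dualK v z).snd
  map_zero' := by simp
  map_add' a b := by simp

theorem D_ι (a : E0 p n) : S.D v (ι p n a) = S.D₀ v a := by
  show (S.dualK v (ι p n a)).snd = _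
  rw [dualK, ι, IsLocalization.Away.lift_eq]
  simp [dual]

theorem D_mul (a b : E0inv p n) : S.D v (a * b) = S.xK a * S.D v b + S.xK b * S.D v a := by
  show (S.dualK v (a * b)).snd = _
  rw [map_mul, TrivSqZeroExt.snd_mul, fst_dualK, fst_dualK]
  simp [D, mul_comm]

theorem bd_D : S.Bd (S.D v) (‖v‖ / S.ρ) := fun N a ha => by
  rw [D_ι]; exact S.bd_D₀ v N a ha

theorem D_eq_sum (z : E0inv p n) :
    S.D v z = ∑ i, v i * S.D (Pi.single i 1) z := by
  obtain ⟨k, a, hz⟩ := exists_rep z
  have h : ∀ w, (p : S.K) ^ k * S.D w z = S.D₀ w a := fun w => by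
    rw [← map_p_pow, hz, D_ι]
  refine mul_left_cancel₀ (pow_ne_zero k S.pK_ne) ?_
  rw [h, Finset.mul_sum, D₀_apply]
  refine Finset.sum_congr rfl fun i _ => ?_
  rw [mul_left_comm, h, D₀_apply, Finset.sum_eq_single i (fun j _ hj => by simp [hj])
    (fun hi => absurd (Finset.mem_univ i) hi), Pi.single_eq_same, one_mul]

section Moved

variable {σ : E0 p n →ₐ[W p n] E0 p n}
  (hσ : ∀ a ∈ 𝔪 p n, σ a ∈ 𝔪 p n)

/-- The moved setup. -/
def moved (hp : (S.P.comp σ hσ).x (p : E0 p n) ≠ 0) : Setup p n where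
  P := S.P.comp σ hσ
  hp := hp
  ρ := S.ρ
  ρ_pos := S.ρ_pos
  ρ_lt := S.ρ_lt
  ρ_le a ha := S.ρ_le _ (hσ a ha)
  c₀ := S.c₀
  norm_c₀ := S.norm_c₀

variable (σ)

/-- The moved point. -/
def x' : E0 p n →+* S.K := S.P.x.comp σ.toRingHom

theorem x'_p : S.x' σ (p : E0 p n) = (p : S.K) := map_natCast _ p

/-- The moved point on `E0[1/p]`. -/
def xK' : E0inv p n →+* S.K :=
  IsLocalization.Away.lift (p : E0 p n) (g := S.x' σ) (by
    rw [x'_p, ← natCast_p]; exact S.isUnit_x_p)

theorem xK'_ι (a : E0 p n) : S.xK' σ (ι p n a) = S.x' σ a := IsLocalization.Away.lift_eq _ _ a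

/-- The displacement of the parameters. -/
def disp : Fin (n - 1) → S.K := fun i => S.P.x (σ (X i)) - S.P.x (X i)

theorem norm_sub_le (a : E0 p n) : ‖S.x' σ a - S.P.x a‖ ≤ ‖S.disp σ‖ := by
  show ‖S.P.x (σ a) - S.P.x a‖ ≤ _
  rw [← map_sub]
  have h := sub_mem_span_moved σ a
  rw [Ideal.span, Submodule.mem_span_range_iff_exists_fun] at h
  obtain ⟨c, hc⟩ := h
  rw [← hc, map_sum]
  refine IsUltrametricDist.norm_sum_le_of_forall_le_of_nonneg (norm_nonneg _) fun i _ => ?_
  rw [smul_eq_mul, map_mul, norm_mul, map_sub]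
  exact (mul_le_of_le_one_left (norm_nonneg _) (S.P.norm_le _)).trans
    (norm_le_pi_norm (S.disp σ) i)

variable {σ}

include hσ in
theorem norm_x'_pow {N : ℕ} {a : E0 p n} (ha : a ∈ 𝔪 p n ^ N) :
    ‖S.x' σ a‖ ≤ S.ρ ^ N := by
  refine S.norm_x_pow ?_
  have h1 : Ideal.map σ.toRingHom (𝔪 p n) ≤ 𝔪 p n := Ideal.map_le_iff_le_comap.2 hσ
  exact Ideal.pow_right_mono h1 N (Ideal.map_pow σ.toRingHom _ N ▸ Ideal.mem_map_of_mem _ ha)

include hσ in
theorem bd_xK' : S.Bd (S.xK' σ).toAddMonoidHom 1 := fun N a ha => by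
  simpa [S.xK'_ι] using S.norm_x'_pow hσ ha

variable (σ)

/-- The second order remainder on `E0`. -/
def T₀ : E0 p n →+ S.K :=
  (S.x' σ).toAddMonoidHom - S.P.x.toAddMonoidHom - S.D₀ (S.disp σ)

theorem T₀_apply (a : E0 p n) :
    S.T₀ σ a = S.x' σ a - S.P.x a - S.D₀ (S.disp σ) a := rfl

theorem T₀_mul (y z : E0 p n) : S.T₀ σ (y * z) = S.P.x y * S.T₀ σ z + S.x' σ z * S.T₀ σ y
    + S.D₀ (S.disp σ) y * (S.x' σ z - S.P.x z) := by
  simp only [T₀_apply, map_mul, D₀_mul]
  ring

theorem T₀_C (w : W p n) : S.T₀ σ (C w) = 0 := by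
  have h : S.x' σ (C w) = S.P.x (C w) := by
    show S.P.x (σ (C w)) = _
    have : (C w : E0 p n) = algebraMap (W p n) (E0 p n) w := rfl
    rw [this, AlgHom.commutes]
  simp [T₀_apply, h, D₀_apply]

theorem T₀_X (i : Fin (n - 1)) : S.T₀ σ (X i) = 0 := by
  classical
  rw [T₀_apply, D₀_apply, Finset.sum_eq_single i]
  · rw [pderiv_X_self, map_one, mul_one]
    show S.P.x (σ (X i)) - _ - (S.P.x (σ (X i)) - _) = _
    ring
  · intro j _ hj
    rw [pderiv_X_of_ne (Ne.symm hj), map_zero, mul_zero]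
  · simp

theorem norm_T₀ (a : E0 p n) : ‖S.T₀ σ a‖ ≤ ‖S.disp σ‖ ^ 2 := by
  have hδ1 : ‖S.disp σ‖ ≤ 1 := (pi_norm_le_iff_of_nonneg zero_le_one).2 fun i =>
    (H.norm_sub_le_max _ _).trans (max_le (S.P.norm_le _) (S.P.norm_le _))
  have hk : ∀ k, ∀ a, ‖S.T₀ σ a‖ ≤ max (S.ρ ^ k) (‖S.disp σ‖ ^ 2) := by
    intro k
    induction k with
    | zero =>
      intro a
      rw [pow_zero, T₀_apply]
      refine le_max_of_le_left ((H.norm_sub_le_max _ _).trans (max_le ?_ ?_))
      · exact (S.norm_sub_le σ a).trans hδ1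
      · exact (S.norm_D₀ _ a).trans hδ1
    | succ k ih =>
      intro a
      have hb := eq_C_add_sum_leastPart a
      rw [hb, map_add, T₀_C, zero_add, map_sum]
      refine IsUltrametricDist.norm_sum_le_of_forall_le_of_nonneg (le_max_of_le_right (sq_nonneg _))
        fun i _ => ?_
      rw [T₀_mul, T₀_X, mul_zero, add_zero]
      refine (IsUltrametricDist.norm_add_le_max _ _).trans (max_le ?_ ?_) <;> rw [norm_mul]
      · refine (mul_le_mul (S.ρ_le _ ?_) (ih (leastPart a i)) (norm_nonneg _) S.ρ_pos.le).trans ?_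
        · rw [IsLocalRing.mem_maximalIdeal, mem_nonunits_iff, isUnit_iff_constantCoeff]
          simp
        · rw [mul_max_of_nonneg _ _ S.ρ_pos.le, ← pow_succ']
          exact max_le_max le_rfl (mul_le_of_le_one_left (sq_nonneg _) S.ρ_lt.le)
      · refine le_max_of_le_right ((mul_le_mul (S.norm_D₀ _ _) (S.norm_sub_le σ _)
          (norm_nonneg _) (norm_nonneg _)).trans_eq (pow_two _).symm)
  refine le_of_forall_pos_le_add fun ε hε => ?_
  obtain ⟨k, hk'⟩ := exists_pow_lt_of_lt_one hε S.ρ_lt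
  exact (hk k a).trans (max_le (hk'.le.trans (le_add_of_nonneg_left (sq_nonneg _)))
    (le_add_of_nonneg_right hε.le))

include hσ in
theorem bd_T₀ (N : ℕ) (a : E0 p n) (ha : a ∈ 𝔪 p n ^ N) :
    ‖S.T₀ σ a‖ ≤ ‖S.disp σ‖ ^ 2 / S.ρ ^ 2 * S.ρ ^ N := by
  have hρ := S.ρ_pos
  induction N generalizing a with
  | zero =>
    rw [pow_zero, mul_one]
    exact (S.norm_T₀ σ a).trans (le_div_self (sq_nonneg _) (by positivity)
      (pow_le_one₀ hρ.le S.ρ_lt.le))
  | succ N ih =>
    rw [pow_succ] at ha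
    induction ha using Submodule.mul_induction_on' with
    | mem_mul_mem y hy z hz =>
      rw [T₀_mul]
      refine (IsUltrametricDist.norm_add_le_max _ _).trans (max_le
        ((IsUltrametricDist.norm_add_le_max _ _).trans (max_le ?_ ?_)) ?_) <;> rw [norm_mul]
      · refine (mul_le_mul (S.norm_x_pow hy) (S.norm_T₀ σ z) (norm_nonneg _)
          (by positivity)).trans ?_
        rw [pow_succ S.ρ N, div_mul_eq_mul_div, le_div_iff₀ (by positivity)]
        calc S.ρ ^ N * ‖S.disp σ‖ ^ 2 * S.ρ ^ 2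
            = ‖S.disp σ‖ ^ 2 * (S.ρ ^ N * S.ρ) * S.ρ := by ring
          _ ≤ _ := mul_le_of_le_one_right (by positivity) S.ρ_lt.le
      · refine (mul_le_mul (S.norm_x'_pow hσ (N := 1) (by simpa using hz)) (ih y hy)
          (norm_nonneg _) (by positivity)).trans_eq ?_
        ring
      · refine (mul_le_mul (S.bd_D₀ _ N y hy) (S.norm_sub_le σ z) (norm_nonneg _)
          (by positivity)).trans_eq ?_
        field_simp
        ring
    | add y _ z _ hy hz =>
      rw [map_add]
      exact (IsUltrametricDist.norm_add_le_max _ _).trans (max_le hy hz)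

/-- The second order remainder on `E0[1/p]`. -/
def T : E0inv p n →+ S.K :=
  (S.xK' σ).toAddMonoidHom - S.xK.toAddMonoidHom - S.D (S.disp σ)

theorem T_apply (z : E0inv p n) : S.T σ z = S.xK' σ z - S.xK z - S.D (S.disp σ) z := rfl

include hσ in
theorem bd_T : S.Bd (S.T σ) (‖S.disp σ‖ ^ 2 / S.ρ ^ 2) := fun N a ha => by
  rw [T_apply, xK'_ι, xK_ι, D_ι]
  exact S.bd_T₀ σ hσ N a ha

end Moved

end Setup

end Vale.Agent.P217.H
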