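import Vale.Agent.P217.Core.CharZero.Calc
import Vale.Agent.P217.Core.CharZero.Moved
import Vale.Agent.P217.LT.Cocycle

/-!
# P217 module H: the periods and their derivatives are independent
-/

noncomputable section

namespace Vale.Agent.P217.H

open MvPowerSeries Topology
open Filter (Tendsto atTop)

variable {p n : ℕ} [Fact p.Prime]

theorem coeff_one_logSeries : PowerSeries.coeff 1 (logSeries p n) = 1 :=
  (FG.haz p n).coeff_one_log

theorem exists_logDeriv : ∃ f₁ g₁ : PowerSeries (E0 p n),
    PowerSeries.map (ι p n) f₁ = PowerSeries.derivative (E0inv p n) (logSeries p n) ∧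
      f₁.constantCoeff = 1 ∧ f₁ * g₁ = 1 := by
  have h : ∀ d, ∃ a, ι p n a =
      PowerSeries.coeff d (PowerSeries.derivative (E0inv p n) (logSeries p n)) := by
    intro d
    rw [PowerSeries.coeff_derivative, logSeries, PowerSeries.coeff_mk]
    by_cases hd : d + 1 = p ^ Nat.log p (d + 1)
    · rw [if_pos hd]
      obtain ⟨a, ha⟩ := (FG.haz p n).l_int (Nat.log p (d + 1))
      refine ⟨a, ?_⟩
      show algebraMap (E0 p n) (E0inv p n) a = _
      rw [ha, mul_comm]
      show logCoeff p n _ * _ = logCoeff p n _ * _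
      congr 1
      rw [← Nat.cast_pow, ← hd]
      push_cast
      rfl
    · exact ⟨0, by rw [if_neg hd, map_zero, zero_mul]⟩
  choose a ha using h
  have h1 : a 0 = 1 := by
    apply FaithfulSMul.algebraMap_injective (E0 p n) (E0inv p n)
    show ι p n (a 0) = ι p n 1
    rw [ha, map_one, PowerSeries.coeff_derivative, zero_add, coeff_one_logSeries]
    simp
  have hc : PowerSeries.constantCoeff (PowerSeries.mk a) = 1 := by
    rw [← PowerSeries.coeff_zero_eq_constantCoeff_apply, PowerSeries.coeff_mk, h1]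
  obtain ⟨g, hg⟩ := (PowerSeries.isUnit_iff_constantCoeff.2 (hc ▸ isUnit_one)).exists_right_inv
  exact ⟨PowerSeries.mk a, g, by ext d; simp [PowerSeries.coeff_map, ha], hc, hg⟩

/-- The derivative of `F` in the `i`-th parameter. -/
def Fd (F : FormalGroup (E0 p n)) (i : Fin (n - 1)) : MvPowerSeries (Fin 2) (E0 p n) :=
  fun d => pderiv (W p n) i (coeff d F.toPowerSeries)

theorem dF_eq_map (F : FormalGroup (E0 p n)) (i : Fin (n - 1)) :
    dF p n F i = map (residueMap p n) (Fd F i) := rfl

theorem map_pderiv {A B s : Type*} [CommRing A] [CommRing B] (π : A →+* B) (i : s)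
    (f : MvPowerSeries s A) : map π (pderiv A i f) = pderiv B i (map π f) := by
  ext e
  simp [coeff_pderiv, map_mul, map_add, map_natCast]

theorem map_coboundary {A B : Type} [CommRing A] [CommRing B] (π : A →+* B) (G : FormalGroup A)
    (ψ : PowerSeries A) :
    map π (coboundary G ψ) = coboundary (G.map π) (PowerSeries.map π ψ) := by
  have hG := PowerSeries.HasSubst.of_constantCoeff_zero G.zero_constantCoeff
  have hX : ∀ i : Fin 2, PowerSeries.HasSubst (X i : MvPowerSeries (Fin 2) A) := fun i =>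
    PowerSeries.HasSubst.of_constantCoeff_zero (constantCoeff_X i)
  rw [coboundary, coboundary, map_sub, map_sub, map_mul, map_mul, PowerSeries.map_subst hG,
    PowerSeries.map_subst (hX 0), PowerSeries.map_subst (hX 1), map_pderiv, map_pderiv, map_X,
    map_X]
  rfl

theorem coboundary_smul {A : Type} [CommRing A] (G : FormalGroup A) (c : A) (ψ : PowerSeries A) :
    coboundary G (c • ψ) = c • coboundary G ψ := by
  have hG := PowerSeries.HasSubst.of_constantCoeff_zero G.zero_constantCoeff
  have hX : ∀ i : Fin 2, PowerSeries.HasSubst (X i : MvPowerSeries (Fin 2) A) := fun i =>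
    PowerSeries.HasSubst.of_constantCoeff_zero (constantCoeff_X i)
  simp only [coboundary, PowerSeries.subst_smul hG, PowerSeries.subst_smul (hX _), mul_smul_comm,
    smul_sub]

namespace Setup

variable (S : Setup p n)

/-- The closed unit disc. -/
def O : Subring S.K where
  carrier := {y | ‖y‖ ≤ 1}
  mul_mem' ha hb := by
    simp only [Set.mem_ofPred_eq, norm_mul] at *
    exact mul_le_one₀ ha (norm_nonneg _) hb
  one_mem' := by simp
  add_mem' ha hb := (IsUltrametricDist.norm_add_le_max _ _).trans (max_le ha hb)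
  zero_mem' := by simp
  neg_mem' ha := by simpa using ha

/-- The small elements of the closed unit disc. -/
def J : Ideal S.O where
  carrier := {y | ‖(y : S.K)‖ ≤ S.ρ}
  add_mem' ha hb := (IsUltrametricDist.norm_add_le_max _ _).trans (max_le ha hb)
  zero_mem' := by simpa using S.ρ_pos.le
  smul_mem' a b hb := by
    show ‖(a : S.K) * (b : S.K)‖ ≤ S.ρ
    rw [norm_mul]
    exact (mul_le_of_le_one_left (norm_nonneg _) a.2).trans hb

/-- The point with values in the closed unit disc. -/
def xO : E0 p n →+* S.O := S.P.x.codRestrict S.O S.P.norm_le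

theorem residueMap_surjective : Function.Surjective (residueMap p n) := fun a =>
  ⟨MvPowerSeries.C (WittVector.teichmuller p a), by
    rw [residueMap, RingHom.comp_apply, constantCoeff_C]
    exact WittVector.teichmuller_coeff_zero p a⟩

theorem ker_residueMap_le : RingHom.ker (residueMap p n) ≤ 𝔪 p n := fun a ha => by
  rw [IsLocalRing.mem_maximalIdeal, mem_nonunits_iff]
  exact fun h => (h.map (residueMap p n)).ne_zero ha

/-- The coefficient field in the reduction of the closed unit disc. -/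
def η : Coef p n →+* S.O ⧸ S.J :=
  RingHom.liftOfSurjective (residueMap p n) residueMap_surjective
    ⟨(Ideal.Quotient.mk S.J).comp S.xO, fun a ha => RingHom.mem_ker.2
      (Ideal.Quotient.eq_zero_iff_mem.2 (S.ρ_le a (ker_residueMap_le ha)))⟩

theorem η_comp : S.η.comp (residueMap p n) = (Ideal.Quotient.mk S.J).comp S.xO :=
  RingHom.liftOfSurjective_comp (residueMap p n) residueMap_surjective _

/-- The descent step: a small solution is smaller. -/
theorem descend {F : FormalGroup (E0 p n)} (hF : IsHazewinkel p n F) [F.IsComm] (hn : 1 ≤ n)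
    {v : Fin (n - 1) → S.K} {ψ : PowerSeries S.K} (hψ0 : ψ.constantCoeff = 0)
    (hE : (∑ i, v i • map S.P.x (Fd F i)) + coboundary (F.map S.P.x) ψ = 0) {c : S.K}
    (hc : c ≠ 0) (hv : ∀ i, ‖v i‖ ≤ ‖c‖) (hψ : ∀ d, ‖PowerSeries.coeff d ψ‖ ≤ ‖c‖) :
    (∀ i, ‖v i‖ ≤ ‖S.c₀ * c‖) ∧ ∀ d, ‖PowerSeries.coeff d ψ‖ ≤ ‖S.c₀ * c‖ := by
  have hO : ∀ {y : S.K}, ‖y‖ ≤ ‖c‖ → c⁻¹ * y ∈ S.O := fun {y} hy => by
    show ‖c⁻¹ * y‖ ≤ 1
    rw [norm_mul, norm_inv, inv_mul_le_iff₀ (norm_pos_iff.2 hc), mul_one]
    exact hy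
  let vO : Fin (n - 1) → S.O := fun i => ⟨c⁻¹ * v i, hO (hv i)⟩
  let ψO : PowerSeries S.O := PowerSeries.mk fun d => ⟨c⁻¹ * PowerSeries.coeff d ψ, hO (hψ d)⟩
  have hψO : PowerSeries.map S.O.subtype ψO = c⁻¹ • ψ := by ext d; simp [ψO]
  have hx : S.O.subtype.comp S.xO = S.P.x := RingHom.ext fun a => rfl
  have hEO : (∑ i, vO i • map S.xO (Fd F i)) + coboundary (F.map S.xO) ψO = 0 := by
    have hsub : ∀ f : MvPowerSeries (Fin 2) (E0 p n), map S.O.subtype (map S.xO f) = map S.P.x f :=
      fun f => by rw [map_map, hx]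
    have hG : (F.map S.xO).map S.O.subtype = F.map S.P.x := FormalGroup.ext (hsub _)
    have hinj : Function.Injective (map (σ := Fin 2) S.O.subtype) := fun f g h => by
      ext e
      have := congrArg (coeff e) h
      simp only [coeff_map] at this
      exact this
    apply hinj
    rw [map_zero, map_add, map_sum, map_coboundary, hψO, hG, coboundary_smul]
    rw [← smul_zero (c⁻¹ : S.K), ← hE, smul_add, Finset.smul_sum]
    congr 1
    refine Finset.sum_congr rfl fun i _ => ?_
    rw [smul_eq_C_mul, map_mul, map_C, hsub, ← smul_eq_C_mul, smul_smul]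
    rfl
  have hG2 : (F.map S.xO).map (Ideal.Quotient.mk S.J) = (specialFibre p n F).map S.η := by
    refine FormalGroup.ext ?_
    show map _ (map S.xO F.toPowerSeries) = map S.η (map (residueMap p n) F.toPowerSeries)
    rw [map_map, map_map, η_comp]
  have h := congrArg (map (Ideal.Quotient.mk S.J)) hEO
  rw [map_zero, map_add, map_sum, map_coboundary, hG2] at h
  obtain ⟨h1, h2⟩ := cocycle_independent hF hn S.η (fun i => Ideal.Quotient.mk S.J (vO i))
    (PowerSeries.map (Ideal.Quotient.mk S.J) ψO)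
    (by
      rw [← PowerSeries.coeff_zero_eq_constantCoeff_apply, PowerSeries.coeff_map]
      rw [Ideal.Quotient.eq_zero_iff_mem]
      show ‖(↑(PowerSeries.coeff 0 ψO) : S.K)‖ ≤ S.ρ
      simpa [ψO, hψ0] using S.ρ_pos.le)
    (by
      refine Eq.trans ?_ h
      congr 1
      refine Finset.sum_congr rfl fun i _ => ?_
      rw [dF_eq_map, map_map, η_comp, smul_eq_C_mul, smul_eq_C_mul, map_mul, map_C, map_map])
  have hback : ∀ {y : S.K}, ‖c⁻¹ * y‖ ≤ S.ρ → ‖y‖ ≤ ‖S.c₀ * c‖ := fun {y} hy => by
    rw [norm_mul, norm_inv, inv_mul_le_iff₀ (norm_pos_iff.2 hc)] at hy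
    rw [norm_mul, norm_c₀, mul_comm]
    exact hy
  refine ⟨fun i => hback (Ideal.Quotient.eq_zero_iff_mem.1 (h1 i) : vO i ∈ S.J), fun d => ?_⟩
  refine hback ?_
  have h3 := congrArg (PowerSeries.coeff d) h2
  rw [PowerSeries.coeff_map, map_zero, Ideal.Quotient.eq_zero_iff_mem] at h3
  simpa [ψO] using (show ‖((PowerSeries.coeff d ψO : S.O) : S.K)‖ ≤ S.ρ from h3)

/-- A bounded solution is zero. -/
theorem cocycle_zero {F : FormalGroup (E0 p n)} (hF : IsHazewinkel p n F) [F.IsComm] (hn : 1 ≤ n)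
    {v : Fin (n - 1) → S.K} {ψ : PowerSeries S.K} (hψ0 : ψ.constantCoeff = 0)
    (hE : (∑ i, v i • map S.P.x (Fd F i)) + coboundary (F.map S.P.x) ψ = 0) {B : ℝ}
    (hB : ∀ d, ‖PowerSeries.coeff d ψ‖ ≤ B) : v = 0 ∧ ψ = 0 := by
  obtain ⟨k, hk⟩ := pow_unbounded_of_one_lt (max B ‖v‖) (one_lt_inv_iff₀.2 ⟨S.π_pos, S.π_lt⟩)
  set c : S.K := ((p : S.K) ^ k)⁻¹ with hc
  have hc0 : c ≠ 0 := inv_ne_zero (pow_ne_zero _ S.pK_ne)
  have hcn : max B ‖v‖ ≤ ‖c‖ := by rw [hc, norm_inv, norm_pow, ← inv_pow]; exact hk.le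
  have key : ∀ j : ℕ, (∀ i, ‖v i‖ ≤ ‖S.c₀ ^ j * c‖) ∧
      ∀ d, ‖PowerSeries.coeff d ψ‖ ≤ ‖S.c₀ ^ j * c‖ := by
    intro j
    induction j with
    | zero =>
      rw [pow_zero, one_mul]
      exact ⟨fun i => (norm_le_pi_norm v i).trans ((le_max_right _ _).trans hcn),
        fun d => (hB d).trans ((le_max_left _ _).trans hcn)⟩
    | succ j ih =>
      have h0 : S.c₀ ^ j * c ≠ 0 := mul_ne_zero (pow_ne_zero _ fun h => S.ρ_pos.ne'
        (by rw [← S.norm_c₀, h, norm_zero])) hc0
      have := S.descend hF hn hψ0 hE h0 ih.1 ih.2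
      rwa [← mul_assoc, ← pow_succ'] at this
  have hz : ∀ y : S.K, (∀ j : ℕ, ‖y‖ ≤ ‖S.c₀ ^ j * c‖) → y = 0 := fun y hy => by
    refine norm_eq_zero.1 (le_antisymm ?_ (norm_nonneg _))
    have ht : Tendsto (fun j : ℕ => ‖S.c₀ ^ j * c‖) atTop (𝓝 0) := by
      simpa [norm_mul, norm_pow, norm_c₀] using
        (tendsto_pow_atTop_nhds_zero_of_lt_one S.ρ_pos.le S.ρ_lt).mul_const ‖c‖
    exact ge_of_tendsto' ht hy
  refine ⟨funext fun i => hz _ fun j => (key j).1 i, ?_⟩
  ext d
  rw [map_zero]
  exact hz _ fun j => (key j).2 d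

/-- The logarithm at the point. -/
def logP : PowerSeries S.K := PowerSeries.map S.xK (logSeries p n)

theorem map_ι_map (f : MvPowerSeries (Fin 2) (E0 p n)) :
    map S.xK (map (ι p n) f) = map S.P.x f := by rw [map_map, xK_comp]

theorem log_add_of {F : FormalGroup (E0 p n)} (hF : IsHazewinkel p n F) {B : Type*} [CommRing B]
    (π : E0 p n →+* B) (πK : E0inv p n →+* B) (hπ : πK.comp (ι p n) = π) :
    PowerSeries.subst (F.map π).toPowerSeries (PowerSeries.map πK (logSeries p n)) =
      PowerSeries.subst (X 0 : MvPowerSeries (Fin 2) B) (PowerSeries.map πK (logSeries p n)) +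
        PowerSeries.subst (X 1 : MvPowerSeries (Fin 2) B)
          (PowerSeries.map πK (logSeries p n)) := by
  have hG := PowerSeries.HasSubst.of_constantCoeff_zero (F.map (ι p n)).zero_constantCoeff
  have hX : ∀ i : Fin 2, PowerSeries.HasSubst (X i : MvPowerSeries (Fin 2) (E0inv p n)) :=
    fun i => PowerSeries.HasSubst.of_constantCoeff_zero (constantCoeff_X i)
  have := congrArg (map πK) (hF : _ = _)
  rw [map_add, PowerSeries.map_subst hG, PowerSeries.map_subst (hX 0),
    PowerSeries.map_subst (hX 1), map_X, map_X] at this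
  rw [show (F.map π).toPowerSeries = map πK (F.map (ι p n)).toPowerSeries by
    rw [FormalGroup.map_toPowerSeries, FormalGroup.map_toPowerSeries, map_map, hπ]]
  exact this

theorem log_add {F : FormalGroup (E0 p n)} (hF : IsHazewinkel p n F) :
    PowerSeries.subst (F.map S.P.x).toPowerSeries S.logP =
      PowerSeries.subst (X 0 : MvPowerSeries (Fin 2) S.K) S.logP +
        PowerSeries.subst (X 1 : MvPowerSeries (Fin 2) S.K) S.logP :=
  log_add_of hF S.P.x S.xK S.xK_comp

theorem derivative_map' {A B : Type*} [CommRing A] [CommRing B] (π : A →+* B)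
    (f : PowerSeries A) :
    PowerSeries.map π (PowerSeries.derivative A f) =
      PowerSeries.derivative B (PowerSeries.map π f) := by
  ext d
  simp [PowerSeries.coeff_derivative, map_mul, map_add, map_natCast]

theorem derivative_logP {f₁ : PowerSeries (E0 p n)}
    (h : PowerSeries.map (ι p n) f₁ = PowerSeries.derivative (E0inv p n) (logSeries p n)) :
    PowerSeries.derivative S.K S.logP = PowerSeries.map S.P.x f₁ := by
  rw [logP, ← derivative_map', ← h, ← RingHom.comp_apply, ← PowerSeries.map_comp, xK_comp]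

/-- A direction in which the periods move proportionally to themselves is zero. -/
theorem eq_zero_of_periods {F : FormalGroup (E0 p n)} (hF : IsHazewinkel p n F) [F.IsComm]
    (hn : 1 ≤ n) (v : Fin (n - 1) → S.K) (ε : S.K)
    (hl : ∀ k < n, Tendsto (fun Q => S.D v (G p n k Q) - ε * S.xK (G p n k Q)) atTop (𝓝 0)) :
    v = 0 ∧ ε = 0 := by
  classical
  let Φ : E0inv p n →+ S.K := S.D v - (AddMonoidHom.mulLeft ε).comp S.xK.toAddMonoidHom
  have hΦ : ∀ z, Φ z = S.D v z - ε * S.xK z := fun z => rfl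
  have hbd : S.Bd Φ (max (‖v‖ / S.ρ) ‖ε‖) := fun N a ha => by
    rw [hΦ, D_ι, xK_ι]
    refine (norm_sub_le_max _ _).trans (max_le
      ((S.bd_D₀ v N a ha).trans ?_) ?_)
    · exact mul_le_mul_of_nonneg_right (le_max_left _ _) (pow_nonneg S.ρ_pos.le N)
    · rw [norm_mul]
      exact mul_le_mul (le_max_right _ _) (S.norm_x_pow ha) (norm_nonneg _)
        (le_max_of_le_right (norm_nonneg _))
  obtain ⟨B, hB⟩ := S.exists_bound_logCoeff hn hbd (fun k hk => by simpa [hΦ] using hl k hk)
  have hB0 : 0 ≤ B := (norm_nonneg _).trans (hB 0)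
  set L := logSeries p n with hL
  set H : PowerSeries S.K := PowerSeries.mk fun d => Φ (PowerSeries.coeff d L) with hH
  have hHB : ∀ d, ‖PowerSeries.coeff d H‖ ≤ B := fun d => by
    rw [hH, PowerSeries.coeff_mk, hL, logSeries, PowerSeries.coeff_mk]
    split_ifs
    · exact hB _
    · simpa using hB0
  obtain ⟨f₁, g₁, hf₁, hf₁0, hfg⟩ := exists_logDeriv (p := p) (n := n)
  set f := PowerSeries.map S.P.x f₁ with hf
  set ψ := H * PowerSeries.map S.P.x g₁ with hψ
  have hψH : ψ * f = H := by
    rw [hψ, hf, mul_assoc, ← map_mul, mul_comm g₁, hfg, map_one, mul_one]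
  have hψB : ∀ d, ‖PowerSeries.coeff d ψ‖ ≤ B := fun d => by
    rw [hψ, PowerSeries.coeff_mul]
    refine IsUltrametricDist.norm_sum_le_of_forall_le_of_nonneg hB0 fun x _ => ?_
    rw [norm_mul, PowerSeries.coeff_map]
    exact (mul_le_of_le_one_right (norm_nonneg _) (S.P.norm_le _)).trans (hHB _)
  have hL0 : PowerSeries.coeff 0 L = 0 := by
    rw [PowerSeries.coeff_zero_eq_constantCoeff_apply]; exact (FG.haz p n).constantCoeff_log
  have hψ0 : ψ.constantCoeff = 0 := by
    rw [hψ, map_mul, ← PowerSeries.coeff_zero_eq_constantCoeff_apply, hH, PowerSeries.coeff_mk,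
      hL0, map_zero, zero_mul]
  set Fb := (F.map S.P.x).toPowerSeries with hFb
  have hFb0 : Fb.constantCoeff = 0 := (F.map S.P.x).zero_constantCoeff
  have hsF := PowerSeries.HasSubst.of_constantCoeff_zero hFb0
  have hsX : ∀ i : Fin 2, PowerSeries.HasSubst (X i : MvPowerSeries (Fin 2) S.K) := fun i =>
    PowerSeries.HasSubst.of_constantCoeff_zero (constantCoeff_X i)
  set Fv : MvPowerSeries (Fin 2) S.K := ∑ i, v i • map S.P.x (Fd F i) with hFv
  have hder : PowerSeries.derivative S.K S.logP = f := S.derivative_logP hf₁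
  have hπ : PowerSeries.map S.xK (PowerSeries.derivative _ L) = f := by
    rw [derivative_map', ← hder]; rfl
  have hlog := S.log_add hF
  have hchain : ∀ (g : MvPowerSeries (Fin 2) (E0inv p n)), g.constantCoeff = 0 →
      mapAdd (S.D v) (PowerSeries.subst g L) =
        PowerSeries.subst (map S.xK g) (PowerSeries.mk fun d => S.D v (PowerSeries.coeff d L)) +
          PowerSeries.subst (map S.xK g) f * mapAdd (S.D v) g := fun g hg => by
    rw [mapAdd_subst S.xK (S.D v) (S.D_mul v) hg L, hπ]
  have hDX : ∀ i : Fin 2, mapAdd (S.D v) (X i : MvPowerSeries (Fin 2) (E0inv p n)) = 0 := by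
    intro i
    ext e
    rw [coeff_mapAdd, coeff_X, map_zero]
    split_ifs
    · rw [← map_one (ι p n), D_ι, D₀_apply]; simp
    · exact map_zero _
  have hDF : mapAdd (S.D v) (F.map (ι p n)).toPowerSeries = Fv := by
    ext e
    rw [coeff_mapAdd, FormalGroup.map_toPowerSeries, coeff_map, D_ι, hFv, map_sum, D₀_apply]
    refine Finset.sum_congr rfl fun i _ => ?_
    rw [map_smul, coeff_map, smul_eq_mul]
    rfl
  have e1 := congrArg (mapAdd (S.D v)) (hF : _ = _)
  rw [map_add, hchain _ (F.map (ι p n)).zero_constantCoeff, hchain _ (constantCoeff_X 0),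
    hchain _ (constantCoeff_X 1), hDX, hDX, mul_zero, mul_zero, add_zero, add_zero, hDF, map_X,
    map_X, show map S.xK (F.map (ι p n)).toPowerSeries = Fb from S.map_ι_map _] at e1
  have hHsub : ∀ {g : MvPowerSeries (Fin 2) S.K}, PowerSeries.HasSubst g →
      PowerSeries.subst g H =
        PowerSeries.subst g (PowerSeries.mk fun d => S.D v (PowerSeries.coeff d L)) -
          ε • PowerSeries.subst g S.logP := fun {g} hg => by
    rw [← PowerSeries.subst_smul hg, ← PowerSeries.subst_sub hg]
    congr 1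
    ext d
    simp [hH, hΦ, logP, PowerSeries.coeff_map, ← hL]
  have eI : PowerSeries.subst Fb H + PowerSeries.subst Fb f * Fv =
      PowerSeries.subst (X 0) H + PowerSeries.subst (X 1) H := by
    rw [hHsub hsF, hHsub (hsX 0), hHsub (hsX 1), hlog, smul_add]
    linear_combination e1
  have hpd : ∀ i : Fin 2, PowerSeries.subst Fb f * pderiv S.K i Fb =
      PowerSeries.subst (X i) f := by
    intro i
    rw [← hder, ← pderiv_subst i hFb0, hlog, map_add, pderiv_subst i (constantCoeff_X 0),
      pderiv_subst i (constantCoeff_X 1)]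
    fin_cases i <;> simp
  have hcob : PowerSeries.subst Fb f * (Fv + coboundary (F.map S.P.x) ψ) = 0 := by
    rw [coboundary, ← hFb]
    have h1 : ∀ {g : MvPowerSeries (Fin 2) S.K}, PowerSeries.HasSubst g →
        PowerSeries.subst g f * PowerSeries.subst g ψ = PowerSeries.subst g H := fun {g} hg => by
      rw [← PowerSeries.subst_mul hg, mul_comm, hψH]
    linear_combination eI + h1 hsF - h1 (hsX 0) - h1 (hsX 1)
      - PowerSeries.subst (X 0) ψ * hpd 0 - PowerSeries.subst (X 1) ψ * hpd 1
  have hne : PowerSeries.subst Fb f ≠ 0 := by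
    intro h0
    have := congrArg MvPowerSeries.constantCoeff h0
    rw [PowerSeries.constantCoeff_subst hsF, map_zero, finsum_eq_single _ 0 fun d hd => by
      simp [zero_pow hd, hFb0]] at this
    simp [hf, hf₁0] at this
  obtain ⟨hv, hψz⟩ := S.cocycle_zero hF hn hψ0
    ((mul_eq_zero.1 hcob).resolve_left hne) hψB
  refine ⟨hv, ?_⟩
  have h1 : PowerSeries.coeff 1 H = 0 := by rw [← hψH, hψz, zero_mul, map_zero]
  rw [hH, PowerSeries.coeff_mk, hΦ, hL, coeff_one_logSeries, hv] at h1
  have h2 : S.D (0 : Fin (n - 1) → S.K) (1 : E0inv p n) = 0 := by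
    rw [← map_one (ι p n), D_ι, D₀_apply]; simp
  rw [h2, map_one] at h1
  simpa using h1

end Setup

end Vale.Agent.P217.H
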