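import Vale.Agent.P217.LT.Universal
import Vale.Agent.P217.LT.Heights
import Vale.Agent.P217.Core.CharZero.Frame

/-!
# P217 module H: the point moved by a test automorphism

The displacement `δ`, the moved periods `Λ'` and the Taylor remainders `R`.
-/

noncomputable section

namespace Vale.Agent.P217.H

open Filter Topology

variable {p n : ℕ} [Fact p.Prime] {F : FormalGroup (E0 p n)}

theorem testAut_index {n q i k d ee : ℕ} (hi : i ≤ n * q) (hee : ee = n * q - i) :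
    ee + (k + i + n * d) = k + n * (q + d) := by
  rw [mul_add]; omega

/-- What is known about the point moved by `x ↦ x +_Γ a x ^ (p ^ (n q - i))`. -/
structure Move {S : Setup p n} (T : Frame S) (hn : 1 ≤ n) (f₀ : E0 p n) (a : Coef p n)
    (i q N : ℕ) where
  /-- the linear term of the transport -/
  c : S.K
  /-- the displacement -/
  δ : Fin (n - 1) → S.K
  /-- the periods at the moved point -/
  Λ' : ℕ → S.K
  /-- the remainders -/
  R : ℕ → S.K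
  δ_le : ‖δ‖ ≤ S.ρ ^ N
  Λ'_le : ∀ k, ‖Λ' k‖ ≤ S.cst hn k
  R_le : ∀ k, ‖R k‖ ≤ ‖δ‖ ^ 2 / S.ρ ^ 2 * S.cst hn k
  D_le : ∀ k, ‖∑ j, δ j * T.dΛ j k‖ ≤ ‖δ‖ / S.ρ * S.cst hn k
  R_eq : ∀ k, Λ' k - T.Λ k = R k + ∑ j, δ j * T.dΛ j k
  f₀_le : ‖S.D₀ δ f₀‖ ≤ ‖δ‖ ^ 2
  e_eq : ∀ r : Fin n, T.e (c - 1, δ) r =
    (p : S.K) ^ q * (S.teich a ^ p ^ ((r : ℕ) + i) * Λ' ((r : ℕ) + i)) + R r

theorem exists_move (hF : IsHazewinkel p n F) [F.IsComm] (hn : 1 ≤ n) {S : Setup p n}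
    (T : Frame S) {I : Ideal (E0 p n)} (hI : ∀ a, a ∈ I ↔ S.P.x a = 0)
    (hinv : IsNearInvariant p n F I) {f₀ : E0 p n} (hf₀ : f₀ ∈ I) (a : Coef p n) {i : ℕ}
    (hi : i < n) (N : ℕ) : ∃ M₀ : ℕ, ∀ q, M₀ ≤ q → Nonempty (Move T hn f₀ a i q N) := by
  obtain ⟨C₀, hC₀, hC⟩ := S.exists_pow_bound
  obtain ⟨M₁, hM₁⟩ := hinv
  obtain ⟨M₂, hM₂⟩ := rigidity hF hn N
  refine ⟨M₁ + M₂ + 2, fun q hq => ?_⟩
  have hρ := S.ρ_pos
  have hπ := S.π_pos
  set ee := n * q - i with hee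
  have h2 : n + (M₁ + M₂ + 1) ≤ n * q := by
    calc n + (M₁ + M₂ + 1) ≤ n * 1 + n * (M₁ + M₂ + 1) := by
          have := Nat.le_mul_of_pos_left (M₁ + M₂ + 1) hn; omega
      _ = n * (M₁ + M₂ + 2) := by ring
      _ ≤ n * q := Nat.mul_le_mul_left n hq
  have hee1 : M₁ + M₂ + 1 ≤ ee := by omega
  set g := testAut p n F a ee with hg
  have hgaut := isAut_testAut hF hn a (show 1 ≤ ee by omega)
  have hdvd : ∀ m ≤ ee, PowerSeries.X ^ p ^ m ∣ g - PowerSeries.X := fun m hm =>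
    (pow_dvd_pow _ (Nat.pow_le_pow_right (Fact.out : p.Prime).pos hm)).trans
      (dvd_testAut_sub_X hF a ee)
  obtain ⟨σ, hσact, -⟩ := existsUnique_action hF hn g hgaut
  have hσm := algHom_maximalIdeal_le σ
  have hδN := hM₂ g σ hgaut (hdvd M₂ (by omega)) hσact
  have hσI := hM₁ g σ hgaut (hdvd M₁ (by omega)) hσact
  obtain ⟨φ, hres, hhom⟩ := hσact
  obtain ⟨c, hc⟩ := S.transport hσm hF hres hhom hC₀.le hC
  have hLx' : ∀ z, (S.xK' σ).toAddMonoidHom (ι p n z) ∈ T.L := fun z => by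
    show S.xK' σ (ι p n z) ∈ T.L
    rw [S.xK'_ι]
    exact T.hLx _
  set Λ' := fun k => S.Lam (S.xK' σ).toAddMonoidHom k
  have tΛ' : ∀ k, Tendsto (fun Q => S.xK' σ (G p n k Q)) atTop (𝓝 (Λ' k)) := fun k =>
    S.tendsto_Lam hn (S.bd_xK' hσm) T.hL hLx' k
  have hR : ∀ k, ‖Λ' k - T.Λ k - ∑ j, S.disp σ j * T.dΛ j k‖ ≤
      ‖S.disp σ‖ ^ 2 / S.ρ ^ 2 * S.cst hn k := fun k =>
    S.norm_le_of_tendsto hn (S.bd_T σ hσm)
      ((((tΛ' k).sub (T.tΛ k)).sub (T.tD (S.disp σ) k)).congr fun Q => rfl)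
  have heq : ∀ k, k < n →
      c * T.Λ k - Λ' k - S.teich a ^ p ^ (k + i) * ((p : S.K) ^ q * Λ' (k + i)) = 0 := by
    intro k hk
    have ht := (((T.tΛ k).const_mul c).sub (tΛ' k)).sub
      ((((tΛ' (k + i)).comp (tendsto_sub_atTop_nat q)).const_mul ((p : S.K) ^ q)).const_mul
        (S.teich a ^ p ^ (k + i)))
    refine tendsto_nhds_unique ht (squeeze_zero_norm' ?_
      (by simpa using (tendsto_pow_atTop_nhds_zero_of_lt_one hπ.le S.π_lt).const_mul C₀))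
    refine eventually_atTop.2 ⟨q, fun Q hQ => ?_⟩
    obtain ⟨d, rfl⟩ := Nat.exists_eq_add_of_le hQ
    have h1 := mul_le_mul_of_nonneg_left (hc (k + i + n * d)) (pow_nonneg hπ.le (q + d))
    rw [testAut_index (by omega) hee, Setup.π, ← norm_pow, ← norm_mul] at h1
    simp only [Function.comp, Nat.add_sub_cancel_left, G, map_mul, map_pow, map_natCast]
    rw [mul_comm C₀]
    refine le_trans (le_of_eq (congrArg norm ?_))
      (le_of_le_of_eq h1 (by rw [norm_pow]; rfl))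
    have hw := S.teich_pow a (k + i) d hn
    have hw' : S.P.x (MvPowerSeries.C (WittVector.teichmuller p a)) = S.teich a := rfl
    rw [hw', hw]
    rw [pow_add (p : S.K) q d]
    ring
  refine ⟨⟨c, S.disp σ, Λ', fun k => Λ' k - T.Λ k - ∑ j, S.disp σ j * T.dΛ j k, ?_, fun k => ?_,
    hR, fun k => S.norm_le_of_tendsto hn (S.bd_D _) (T.tD (S.disp σ) k), fun k => by ring, ?_,
    fun r => ?_⟩⟩
  · refine (pi_norm_le_iff_of_nonneg (by positivity)).2 fun j => ?_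
    rw [Setup.disp, ← map_sub]
    exact S.norm_x_pow (hδN _)
  · simpa using S.norm_le_of_tendsto hn (S.bd_xK' hσm) (tΛ' k)
  · have hfx : S.P.x f₀ = 0 := (hI _).1 hf₀
    have hf' : S.x' σ f₀ = 0 := (hI _).1 (hσI _ hf₀)
    have := S.norm_T₀ σ f₀
    rwa [S.T₀_apply, hf', hfx, sub_self, zero_sub, norm_neg] at this
  · rw [T.e_apply]
    linear_combination heq r r.2

end Vale.Agent.P217.H
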