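import Vale.Agent.P217.Point.Basic
import Vale.Agent.P217.FG.Existence

/-!
# P217 module H: periods of the logarithm at a point of characteristic zero

`G k Q = p ^ Q * ℓ (k + n * Q)` converges very fast under every additive functional on `E0[1/p]`
which is bounded on the powers of the maximal ideal.
-/

noncomputable section

namespace Vale.Agent.P217.H

open Filter Topology

variable {p n : ℕ} [Fact p.Prime]

/-- The maximal ideal of `E0`. -/
abbrev 𝔪 (p n : ℕ) [Fact p.Prime] : Ideal (E0 p n) := IsLocalRing.maximalIdeal (E0 p n)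

/-- The embedding of `E0` in `E0[1/p]`. -/
abbrev ι (p n : ℕ) [Fact p.Prime] : E0 p n →+* E0inv p n := algebraMap _ _

theorem p_mem_max : (p : E0 p n) ∈ 𝔪 p n := by
  rw [IsLocalRing.mem_maximalIdeal, mem_nonunits_iff, MvPowerSeries.isUnit_iff_constantCoeff,
    map_natCast]
  exact fun h => (WittVector.irreducible p (k := Coef p n)).not_isUnit h

theorem u_mem_max {i : ℕ} (hi : i ≠ n) : u p n i ∈ 𝔪 p n := by
  rw [IsLocalRing.mem_maximalIdeal, mem_nonunits_iff, MvPowerSeries.isUnit_iff_constantCoeff, u]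
  split_ifs with h <;> simp

/-- A point which does not kill `p`, with a bound for the maximal ideal which is a value of the
norm. -/
structure Setup (p n : ℕ) [Fact p.Prime] where
  /-- the point -/
  P : Point p n
  hp : P.x (p : E0 p n) ≠ 0
  /-- the bound -/
  ρ : ℝ
  ρ_pos : 0 < ρ
  ρ_lt : ρ < 1
  ρ_le : ∀ a ∈ 𝔪 p n, ‖P.x a‖ ≤ ρ
  /-- an element of norm `ρ` -/
  c₀ : P.K
  norm_c₀ : ‖c₀‖ = ρ

theorem exists_setup (P : Point p n) (hp : P.x (p : E0 p n) ≠ 0) :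
    ∃ S : Setup p n, S.P = P := by
  obtain ⟨r, hr, hr'⟩ := P.contract
  have hpm := hr' _ (p_mem_max (p := p) (n := n))
  have hπ : 0 < ‖P.x (p : E0 p n)‖ := norm_pos_iff.2 hp
  obtain ⟨k, hk⟩ := exists_pow_lt_of_lt_one hπ hr
  have hr0 : 0 < r := hπ.trans_le hpm
  obtain ⟨c, hc⟩ := IsAlgClosed.exists_pow_nat_eq (P.x (p : E0 p n)) (n := k + 1) k.succ_pos
  have hc' : ‖c‖ ^ (k + 1) = ‖P.x (p : E0 p n)‖ := by rw [← norm_pow, hc]
  refine ⟨⟨P, hp, ‖c‖, ?_, ?_, fun a ha => (hr' a ha).trans ?_, c, rfl⟩, rfl⟩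
  · exact norm_pos_iff.2 fun h => hπ.ne' (by rw [← hc', h, norm_zero, zero_pow k.succ_ne_zero])
  · by_contra h
    have := one_le_pow₀ (not_lt.1 h) (n := k + 1)
    rw [hc'] at this
    linarith
  · by_contra h
    have h1 := pow_lt_pow_left₀ (not_le.1 h) (norm_nonneg c) k.succ_ne_zero
    rw [hc', pow_succ] at h1
    nlinarith [pow_pos hr0 k]

theorem norm_sub_le_max {E : Type*} [SeminormedAddGroup E] [IsUltrametricDist E] (a b : E) :
    ‖a - b‖ ≤ max ‖a‖ ‖b‖ := by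
  simpa [sub_eq_add_neg] using IsUltrametricDist.norm_add_le_max a (-b)

namespace Setup

variable (S : Setup p n)

/-- The field of the point. -/
abbrev K := S.P.K

/-- The norm of `p`. -/
def π : ℝ := ‖(p : S.K)‖

theorem natCast_p : S.P.x (p : E0 p n) = (p : S.K) := map_natCast S.P.x p

theorem π_pos : 0 < S.π := by
  rw [π, ← S.natCast_p]; exact norm_pos_iff.2 S.hp

theorem π_le : S.π ≤ S.ρ := by
  rw [π, ← S.natCast_p]; exact S.ρ_le _ p_mem_max

theorem π_lt : S.π < 1 := S.π_le.trans_lt S.ρ_lt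

theorem pK_ne : (p : S.K) ≠ 0 := S.natCast_p ▸ S.hp

theorem norm_x_pow {N : ℕ} {a : E0 p n} (ha : a ∈ 𝔪 p n ^ N) : ‖S.P.x a‖ ≤ S.ρ ^ N := by
  induction N generalizing a with
  | zero => simpa using S.P.norm_le a
  | succ N ih =>
    rw [pow_succ] at ha
    induction ha using Submodule.mul_induction_on' with
    | mem_mul_mem y hy z hz =>
      rw [map_mul, norm_mul, pow_succ]
      exact mul_le_mul (ih hy) (S.ρ_le z hz) (norm_nonneg _) (pow_nonneg S.ρ_pos.le _)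
    | add y _ z _ hy hz =>
      rw [map_add]
      exact (IsUltrametricDist.norm_add_le_max _ _).trans (max_le hy hz)

theorem isUnit_x_p : IsUnit (S.P.x (p : E0 p n)) := S.hp.isUnit

/-- The point on `E0[1/p]`. -/
def xK : E0inv p n →+* S.K := IsLocalization.Away.lift (p : E0 p n) S.isUnit_x_p

theorem xK_ι (a : E0 p n) : S.xK (ι p n a) = S.P.x a := IsLocalization.Away.lift_eq _ _ a

theorem xK_comp : S.xK.comp (ι p n) = S.P.x := RingHom.ext S.xK_ι

/-- `Φ` is bounded on the powers of the maximal ideal. -/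
def Bd (Φ : E0inv p n →+ S.K) (A : ℝ) : Prop :=
  ∀ N, ∀ a ∈ 𝔪 p n ^ N, ‖Φ (ι p n a)‖ ≤ A * S.ρ ^ N

theorem bd_xK : S.Bd S.xK.toAddMonoidHom 1 := fun N a ha => by
  simpa [S.xK_ι] using S.norm_x_pow ha

theorem Bd.nonneg {Φ : E0inv p n →+ S.K} {A : ℝ} (h : S.Bd Φ A) : 0 ≤ A := by
  simpa using h 0 0 (zero_mem _)

theorem map_p_pow (Φ : E0inv p n →+ S.K) (k : ℕ) (z : E0inv p n) :
    Φ ((p : E0inv p n) ^ k * z) = (p : S.K) ^ k * Φ z := by
  rw [← Nat.cast_pow, ← nsmul_eq_mul, map_nsmul, nsmul_eq_mul, Nat.cast_pow]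

theorem Bd.norm_le {Φ : E0inv p n →+ S.K} {A : ℝ} (h : S.Bd Φ A) {k N : ℕ} {a : E0 p n}
    {z : E0inv p n} (ha : a ∈ 𝔪 p n ^ N) (hz : (p : E0inv p n) ^ k * z = ι p n a) :
    S.π ^ k * ‖Φ z‖ ≤ A * S.ρ ^ N := by
  rw [π, ← norm_pow, ← norm_mul, ← map_p_pow, hz]
  exact h N a ha

theorem exists_rep (z : E0inv p n) : ∃ (k : ℕ) (a : E0 p n), (p : E0inv p n) ^ k * z = ι p n a := by
  obtain ⟨k, a, h⟩ := IsLocalization.Away.surj (p : E0 p n) z
  exact ⟨k, a, by rw [← h, map_natCast, mul_comm]⟩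

theorem mem_subfield {L : Subfield S.K} (Φ : E0inv p n →+ S.K)
    (h : ∀ a, Φ (ι p n a) ∈ L) (z : E0inv p n) : Φ z ∈ L := by
  obtain ⟨k, a, hz⟩ := exists_rep z
  have : Φ z = ((p : S.K) ^ k)⁻¹ * Φ (ι p n a) := by
    rw [← hz, map_p_pow, inv_mul_cancel_left₀ (pow_ne_zero _ S.pK_ne)]
  rw [this]
  exact L.mul_mem (L.inv_mem (L.pow_mem (natCast_mem L p) k)) (h a)

end Setup

/-- `p ^ Q * ℓ (k + n * Q)`. -/
def G (p n : ℕ) [Fact p.Prime] (k Q : ℕ) : E0inv p n :=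
  (p : E0inv p n) ^ Q * logCoeff p n (k + n * Q)

theorem p_mul_G (k Q : ℕ) : (p : E0inv p n) * G p n (k + n) Q = G p n k (Q + 1) := by
  rw [G, G, pow_succ', mul_assoc, show k + n + n * Q = k + n * (Q + 1) by ring]

theorem exists_G_zero (k : ℕ) :
    ∃ a : E0 p n, (p : E0inv p n) ^ k * G p n k 0 = ι p n a := by
  obtain ⟨a, ha⟩ := (FG.haz p n).l_int k
  exact ⟨a, by simp only [G, pow_zero, one_mul, mul_zero, add_zero]; exact ha.symm⟩

theorem exists_G_step (hn : 1 ≤ n) (k Q : ℕ) :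
    ∃ a ∈ 𝔪 p n ^ p ^ Q,
      (p : E0inv p n) ^ (k + n * (Q + 1)) * (G p n k (Q + 1) - G p n k Q) = ι p n a := by
  set t := k + n * (Q + 1) with ht
  set s₀ := k + n * Q with hs₀
  have hts : t = s₀ + n := by rw [ht, hs₀]; ring
  obtain ⟨t', ht'⟩ : ∃ t', t = t' + 1 := ⟨t - 1, by omega⟩
  have hrec : (p : E0inv p n) * logCoeff p n t - logCoeff p n s₀ =
      ∑ s ∈ (Finset.range t).erase s₀, logCoeff p n s * ι p n (u p n (t - s)) ^ p ^ s := by
    have h := (FG.haz p n).l_succ t'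
    have hmem : s₀ ∈ Finset.range (t' + 1) := Finset.mem_range.2 (by omega)
    rw [← Finset.add_sum_erase _ _ hmem] at h
    rw [ht']
    refine sub_eq_iff_eq_add'.2 (h.trans ?_)
    congr 1
    show logCoeff p n s₀ * ι p n (u p n (t' + 1 - s₀)) ^ p ^ s₀ = _
    have : t' + 1 - s₀ = n := by omega
    have hu : u p n n = 1 := by simp [u]
    rw [this, hu, map_one, one_pow, mul_one]
  have hterm : ∀ s ∈ (Finset.range t).erase s₀, ∃ a ∈ 𝔪 p n ^ p ^ Q,
      (p : E0inv p n) ^ t * ((p : E0inv p n) ^ Q *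
        (logCoeff p n s * ι p n (u p n (t - s)) ^ p ^ s)) = ι p n a := by
    intro s hs
    obtain ⟨hne, hlt⟩ := Finset.mem_erase.1 hs
    rw [Finset.mem_range] at hlt
    by_cases hsn : s < s₀
    · refine ⟨0, zero_mem _, ?_⟩
      rw [FG.u_eq_zero p n (show n < t - s by omega), map_zero,
        zero_pow (pow_ne_zero _ (Fact.out : p.Prime).ne_zero)]
      simp
    obtain ⟨b, hb⟩ := (FG.haz p n).l_int s
    refine ⟨(p : E0 p n) ^ (Q + (t - s)) * b * u p n (t - s) ^ p ^ s, ?_, ?_⟩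
    · refine Ideal.mul_mem_left _ _ (Ideal.pow_le_pow_right ?_
        (Ideal.pow_mem_pow (u_mem_max (show t - s ≠ n by omega)) (p ^ s)))
      refine Nat.pow_le_pow_right (Fact.out : p.Prime).pos ?_
      have : Q ≤ n * Q := Nat.le_mul_of_pos_left Q hn
      omega
    · have hb' : ι p n b = (p : E0inv p n) ^ s * logCoeff p n s := hb
      rw [map_mul, map_mul, map_pow, map_pow, map_natCast, hb']
      have e : t = (t - s) + s := by omega
      nth_rw 1 [e]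
      ring
  choose a ha ha' using hterm
  refine ⟨∑ s ∈ ((Finset.range t).erase s₀).attach, a s.1 s.2,
    Submodule.sum_mem _ fun s _ => ha _ _, ?_⟩
  have e : G p n k (Q + 1) - G p n k Q =
      (p : E0inv p n) ^ Q * ((p : E0inv p n) * logCoeff p n t - logCoeff p n s₀) := by
    rw [G, G, ← ht, ← hs₀, pow_succ]; ring
  rw [e, hrec, map_sum, Finset.mul_sum, Finset.mul_sum,
    ← Finset.sum_attach ((Finset.range t).erase s₀)]
  exact Finset.sum_congr rfl fun s _ => ha' _ _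

/-- Doubly exponential decay beats exponential decay. -/
theorem exists_pow_pow_le {ρ a : ℝ} (h0 : 0 ≤ ρ) (h1 : ρ < 1) (ha : 0 < a) {p : ℕ} (hp : 1 < p) :
    ∃ C : ℝ, 0 < C ∧ ∀ Q : ℕ, ρ ^ p ^ Q ≤ C * a ^ Q := by
  obtain ⟨k, hk⟩ := exists_pow_lt_of_lt_one ha h1
  obtain ⟨Q0, hQ0⟩ : ∃ Q0, ∀ Q, Q0 ≤ Q → k * Q ≤ p ^ Q := by
    refine ⟨2 * k + 4, fun Q hQ => ?_⟩
    have h2 : ∀ m, m * m ≤ 2 ^ (m + 2) := by
      intro m
      induction m with
      | zero => simp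
      | succ m ih =>
        have h2m : 2 * m + 1 ≤ 2 ^ (m + 2) := by
          have := Nat.lt_pow_self (n := m) one_lt_two
          rw [pow_add]; omega
        rw [pow_succ 2]
        linarith [show (m + 1) * (m + 1) = m * m + (2 * m + 1) by ring]
    have h3 := h2 (Q - 2)
    obtain ⟨R, rfl⟩ : ∃ R, Q = R + 2 := ⟨Q - 2, by omega⟩
    simp only [Nat.add_sub_cancel] at h3
    have h4 : 2 ^ (R + 2) ≤ p ^ (R + 2) := Nat.pow_le_pow_left hp _
    have h5 : k * (R + 2) ≤ R * R := by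
      have : 2 * k + 2 ≤ R := by omega
      nlinarith
    omega
  have hsum : 0 ≤ ∑ Q ∈ Finset.range Q0, (a ^ Q)⁻¹ := Finset.sum_nonneg fun Q _ => by positivity
  refine ⟨1 + ∑ Q ∈ Finset.range Q0, (a ^ Q)⁻¹, by linarith, fun Q => ?_⟩
  rcases lt_or_ge Q Q0 with h | h
  · have h2 : (a ^ Q)⁻¹ ≤ 1 + ∑ Q ∈ Finset.range Q0, (a ^ Q)⁻¹ := by
      have := Finset.single_le_sum (f := fun Q => (a ^ Q)⁻¹) (fun Q _ => by positivity)
        (Finset.mem_range.2 h)
      linarith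
    calc ρ ^ p ^ Q ≤ 1 := pow_le_one₀ h0 h1.le
      _ = (a ^ Q)⁻¹ * a ^ Q := (inv_mul_cancel₀ (by positivity)).symm
      _ ≤ _ := mul_le_mul_of_nonneg_right h2 (by positivity)
  · calc ρ ^ p ^ Q ≤ ρ ^ (k * Q) := pow_le_pow_of_le_one h0 h1.le (hQ0 Q h)
      _ = (ρ ^ k) ^ Q := pow_mul ρ k Q
      _ ≤ 1 * a ^ Q := by rw [one_mul]; exact pow_le_pow_left₀ (by positivity) hk.le Q
      _ ≤ _ := mul_le_mul_of_nonneg_right (by linarith) (by positivity)

namespace Setup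

variable (S : Setup p n)

/-- The constant of the `k`-th sequence. -/
theorem exists_const (hn : 1 ≤ n) (k : ℕ) : ∃ C : ℝ, 0 < C ∧ ∀ (Φ : E0inv p n →+ S.K) (A : ℝ),
    S.Bd Φ A → (∀ Q, ‖Φ (G p n k Q)‖ ≤ A * C) ∧
      ∀ Q Q', Q ≤ Q' → ‖Φ (G p n k Q) - Φ (G p n k Q')‖ ≤ A * C * S.π ^ Q := by
  have hπ := S.π_pos
  obtain ⟨C0, hC0, hC⟩ := exists_pow_pow_le S.ρ_pos.le S.ρ_lt
    (show 0 < S.π ^ (n + 1) by positivity) (Fact.out : p.Prime).one_lt
  set C := max ((S.π ^ k)⁻¹) (C0 / S.π ^ (k + n)) with hCdef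
  have hCpos : 0 < C := lt_max_of_lt_left (by positivity)
  refine ⟨C, hCpos, fun Φ A h => ?_⟩
  have hA := h.nonneg
  have hstep : ∀ Q, ‖Φ (G p n k Q) - Φ (G p n k (Q + 1))‖ ≤ A * C * S.π ^ Q := by
    intro Q
    obtain ⟨a, ha, hz⟩ := exists_G_step (p := p) hn k Q
    have h1 := h.norm_le S ha hz
    rw [map_sub, norm_sub_rev] at h1
    have h2 : S.ρ ^ p ^ Q ≤ C * S.π ^ Q * S.π ^ (k + n * (Q + 1)) := by
      refine (hC Q).trans ?_
      calc C0 * (S.π ^ (n + 1)) ^ Q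
          = C0 / S.π ^ (k + n) * S.π ^ Q * S.π ^ (k + n * (Q + 1)) := by
            rw [div_mul_eq_mul_div, div_mul_eq_mul_div, eq_div_iff (by positivity)]
            ring
        _ ≤ _ := by
            gcongr
            exact le_max_right _ _
    refine le_of_mul_le_mul_left (h1.trans ((mul_le_mul_of_nonneg_left h2 hA).trans_eq ?_))
      (show 0 < S.π ^ (k + n * (Q + 1)) by positivity)
    ring
  have hdiff : ∀ Q Q', Q ≤ Q' → ‖Φ (G p n k Q) - Φ (G p n k Q')‖ ≤ A * C * S.π ^ Q := by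
    intro Q Q' hQ
    induction Q', hQ using Nat.le_induction with
    | base => rw [sub_self, norm_zero]; positivity
    | succ Q' hQ ih =>
      rw [← sub_add_sub_cancel _ (Φ (G p n k Q'))]
      refine (IsUltrametricDist.norm_add_le_max _ _).trans (max_le ih ((hstep Q').trans ?_))
      exact mul_le_mul_of_nonneg_left (pow_le_pow_of_le_one hπ.le S.π_lt.le hQ) (by positivity)
  refine ⟨fun Q => ?_, hdiff⟩
  obtain ⟨a, hz⟩ := exists_G_zero (p := p) (n := n) k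
  have h0 := h.norm_le S (N := 0) (by simp) hz
  rw [pow_zero, mul_one, ← le_div_iff₀' (by positivity), div_eq_mul_inv] at h0
  rw [show Φ (G p n k Q) = Φ (G p n k 0) + -(Φ (G p n k 0) - Φ (G p n k Q)) by abel]
  refine (IsUltrametricDist.norm_add_le_max _ _).trans (max_le (h0.trans ?_) ?_)
  · exact mul_le_mul_of_nonneg_left (le_max_left _ _) hA
  · rw [norm_neg]; simpa using hdiff 0 Q (Nat.zero_le Q)

/-- The constant of the `k`-th sequence. -/
def cst (hn : 1 ≤ n) (k : ℕ) : ℝ := (S.exists_const hn k).choose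

theorem cst_pos (hn : 1 ≤ n) (k : ℕ) : 0 < S.cst hn k := (S.exists_const hn k).choose_spec.1

/-- The period of `Φ`. -/
def Lam (Φ : E0inv p n →+ S.K) (k : ℕ) : S.K := limUnder atTop fun Q => Φ (G p n k Q)

theorem tendsto_Lam (hn : 1 ≤ n) {Φ : E0inv p n →+ S.K} {A : ℝ} (h : S.Bd Φ A)
    {L : Subfield S.K} (hL : IsComplete (L : Set S.K)) (hΦ : ∀ a, Φ (ι p n a) ∈ L) (k : ℕ) :
    Tendsto (fun Q => Φ (G p n k Q)) atTop (𝓝 (S.Lam Φ k)) := by
  refine tendsto_nhds_limUnder ?_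
  have hc : CauchySeq fun Q => Φ (G p n k Q) := by
    refine cauchySeq_of_le_geometric S.π (A * S.cst hn k) S.π_lt fun Q => ?_
    rw [dist_eq_norm]
    exact ((S.exists_const hn k).choose_spec.2 Φ A h).2 Q (Q + 1) Q.le_succ
  obtain ⟨l, -, hl⟩ := cauchySeq_tendsto_of_isComplete hL (fun Q => S.mem_subfield Φ hΦ _) hc
  exact ⟨l, hl⟩

theorem norm_sub_le_of_tendsto (hn : 1 ≤ n) {Φ : E0inv p n →+ S.K} {A : ℝ} (h : S.Bd Φ A)
    {k : ℕ} {l : S.K} (hl : Tendsto (fun Q => Φ (G p n k Q)) atTop (𝓝 l)) (Q : ℕ) :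
    ‖Φ (G p n k Q) - l‖ ≤ A * S.cst hn k * S.π ^ Q :=
  le_of_tendsto (hl.const_sub _).norm (eventually_atTop.2
    ⟨Q, fun Q' hQ' => ((S.exists_const hn k).choose_spec.2 Φ A h).2 Q Q' hQ'⟩)

theorem norm_le_of_tendsto (hn : 1 ≤ n) {Φ : E0inv p n →+ S.K} {A : ℝ} (h : S.Bd Φ A)
    {k : ℕ} {l : S.K} (hl : Tendsto (fun Q => Φ (G p n k Q)) atTop (𝓝 l)) :
    ‖l‖ ≤ A * S.cst hn k :=
  le_of_tendsto hl.norm (Eventually.of_forall fun Q =>
    ((S.exists_const hn k).choose_spec.2 Φ A h).1 Q)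

theorem p_mul_lim {Φ : E0inv p n →+ S.K} {k : ℕ} {l l' : S.K}
    (hl : Tendsto (fun Q => Φ (G p n k Q)) atTop (𝓝 l))
    (hl' : Tendsto (fun Q => Φ (G p n (k + n) Q)) atTop (𝓝 l')) : (p : S.K) * l' = l := by
  refine tendsto_nhds_unique ((hl'.const_mul (p : S.K)).congr fun Q => ?_)
    (hl.comp (tendsto_add_atTop_nat 1))
  simp only [Function.comp]
  rw [← p_mul_G]
  simpa using (map_p_pow S Φ 1 (G p n (k + n) Q)).symm

/-- A functional whose periods vanish is bounded on all logarithm coefficients. -/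
theorem exists_bound_logCoeff (hn : 1 ≤ n) {Φ : E0inv p n →+ S.K} {A : ℝ} (h : S.Bd Φ A)
    (hl : ∀ k < n, Tendsto (fun Q => Φ (G p n k Q)) atTop (𝓝 0)) :
    ∃ B : ℝ, ∀ t, ‖Φ (logCoeff p n t)‖ ≤ B := by
  refine ⟨A * ∑ k ∈ Finset.range n, S.cst hn k, fun t => ?_⟩
  have hr : t % n < n := Nat.mod_lt _ hn
  have h1 := S.norm_sub_le_of_tendsto hn h (hl _ hr) (t / n)
  have e : G p n (t % n) (t / n) = (p : E0inv p n) ^ (t / n) * logCoeff p n t := by
    rw [G, Nat.mod_add_div]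
  rw [sub_zero, e, map_p_pow, norm_mul, norm_pow, mul_comm] at h1
  refine (le_of_mul_le_mul_right h1 (pow_pos S.π_pos _)).trans ?_
  exact mul_le_mul_of_nonneg_left (Finset.single_le_sum (fun k _ => (S.cst_pos hn k).le)
    (Finset.mem_range.2 hr)) h.nonneg

end Setup

end Vale.Agent.P217.H
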