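import Vale.Agent.P217.Core.CharZero.Inject

/-!
# P217 module H: the logarithm under the action of a test automorphism

`log_{σx} ∘ φ = c * log_x`, and modulo bounded series `log_{σx} ∘ φ` is the sum of `log_{σx} X`
and `log_{σx} (ω X ^ (p ^ e))`.
-/

noncomputable section

namespace Vale.Agent.P217.H

open MvPowerSeries

variable {p n : ℕ} [Fact p.Prime]

theorem subst_two_subst {A τ : Type*} [CommRing A] {P : MvPowerSeries (Fin 2) A}
    (hP : P.constantCoeff = 0) (f : PowerSeries A) {a b : MvPowerSeries τ A}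
    (ha : a.constantCoeff = 0) (hb : b.constantCoeff = 0) :
    MvPowerSeries.subst ![a, b] (PowerSeries.subst P f) =
      PowerSeries.subst (MvPowerSeries.subst ![a, b] P) f := by
  have hab : MvPowerSeries.HasSubst ![a, b] :=
    hasSubst_of_constantCoeff_zero fun i => by fin_cases i <;> simpa
  rw [PowerSeries.subst, subst_comp_subst_apply
    (PowerSeries.HasSubst.of_constantCoeff_zero hP).const hab]
  rfl

theorem constantCoeff_two {A τ : Type*} [CommRing A] {P : MvPowerSeries (Fin 2) A}
    (hP : P.constantCoeff = 0) {a b : MvPowerSeries τ A} (ha : a.constantCoeff = 0)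
    (hb : b.constantCoeff = 0) : (MvPowerSeries.subst ![a, b] P).constantCoeff = 0 :=
  constantCoeff_subst_eq_zero
    (hasSubst_of_constantCoeff_zero fun i => by fin_cases i <;> simpa)
    (fun i => by fin_cases i <;> simpa) hP

theorem add_subst_two {A τ : Type*} [CommRing A] {P : MvPowerSeries (Fin 2) A}
    (hP : P.constantCoeff = 0) {L : PowerSeries A}
    (hL : PowerSeries.subst P L = PowerSeries.subst (X 0 : MvPowerSeries (Fin 2) A) L +
      PowerSeries.subst (X 1 : MvPowerSeries (Fin 2) A) L)
    {a b : MvPowerSeries τ A} (ha : a.constantCoeff = 0) (hb : b.constantCoeff = 0) :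
    PowerSeries.subst (MvPowerSeries.subst ![a, b] P) L =
      PowerSeries.subst a L + PowerSeries.subst b L := by
  have hab : MvPowerSeries.HasSubst ![a, b] :=
    hasSubst_of_constantCoeff_zero fun i => by fin_cases i <;> simpa
  rw [← subst_two_subst hP L ha hb, hL, MvPowerSeries.subst_add hab,
    subst_two_subst (constantCoeff_X 0) L ha hb, subst_two_subst (constantCoeff_X 1) L ha hb,
    subst_X hab, subst_X hab]
  simp

/-- An additive series with vanishing linear term is zero. -/
theorem eq_zero_of_additive {K : Type} [Field K] [CharZero K] (G : FormalGroup K)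
    {k : PowerSeries K} (h0 : k.constantCoeff = 0) (h1 : PowerSeries.coeff 1 k = 0)
    (hk : PowerSeries.subst G.toPowerSeries k =
      PowerSeries.subst (X 0 : MvPowerSeries (Fin 2) K) k +
        PowerSeries.subst (X 1 : MvPowerSeries (Fin 2) K) k) : k = 0 := by
  classical
  have h := congrArg (pderiv K (0 : Fin 2)) hk
  rw [map_add, pderiv_subst 0 G.zero_constantCoeff, pderiv_subst 0 (constantCoeff_X 0),
    pderiv_subst 0 (constantCoeff_X 1), pderiv_X_self, pderiv_X_of_ne (by decide), mul_one,
    mul_zero, add_zero] at h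
  set q := PowerSeries.derivative K k with hq
  have hX : (PowerSeries.X : PowerSeries K).constantCoeff = 0 := PowerSeries.constantCoeff_X
  have hs : MvPowerSeries.HasSubst ![(0 : PowerSeries K), PowerSeries.X] := HasSubst.zero_X
  have h' := congrArg (MvPowerSeries.subst ![(0 : PowerSeries K), PowerSeries.X]) h
  rw [MvPowerSeries.subst_mul hs, subst_two_subst G.zero_constantCoeff q (map_zero _) hX,
    subst_two_subst (constantCoeff_X 0) q (map_zero _) hX,
    G.zero_add (PowerSeries.HasSubst.of_constantCoeff_zero hX), subst_X hs] at h'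
  have hq0 : PowerSeries.subst (0 : PowerSeries K) q = 0 := by
    refine PowerSeries.subst_zero_of_constantCoeff_zero ?_
    rw [hq, ← PowerSeries.coeff_zero_eq_constantCoeff_apply, PowerSeries.coeff_derivative, h1,
      zero_mul]
  rw [show (![(0 : PowerSeries K), PowerSeries.X]) 0 = 0 from rfl] at h'
  have h2 : PowerSeries.subst (PowerSeries.X : PowerSeries K) q *
      MvPowerSeries.subst ![(0 : PowerSeries K), PowerSeries.X]
        (pderiv K 0 G.toPowerSeries) = 0 := h'.trans hq0
  rw [PowerSeries.X_subst] at h2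
  have hne : MvPowerSeries.subst ![(0 : PowerSeries K), PowerSeries.X]
      (pderiv K 0 G.toPowerSeries) ≠ 0 := by
    intro hz
    have := congrArg MvPowerSeries.constantCoeff hz
    rw [constantCoeff_subst hs, map_zero, finsum_eq_single _ 0] at this
    · have e0 : MvPowerSeries.coeff 0 (pderiv K 0 G.toPowerSeries) = 1 := by
        rw [coeff_pderiv, _root_.zero_add, G.lin_coeff_X]; simp
      rw [e0] at this
      simp at this
    · intro d hd
      obtain ⟨i, hi⟩ := Finsupp.ne_iff.1 hd
      rw [Finsupp.prod, map_prod, Finset.prod_eq_zero (i := i) (Finsupp.mem_support_iff.2 hi),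
        smul_zero]
      have hi0 : (![(0 : PowerSeries K), PowerSeries.X] i).constantCoeff = 0 := by
        fin_cases i <;> simp
      rw [map_pow]
      exact (congrArg (· ^ d i) hi0).trans (zero_pow hi)
  refine PowerSeries.derivative.ext ?_ ?_
  · rw [map_zero]; exact (mul_eq_zero.1 h2).resolve_right hne
  · rw [h0, map_zero]

namespace Setup

variable (S : Setup p n)

theorem charZero : CharZero S.K := by
  refine charZero_of_inj_zero fun m hm => ?_
  by_contra h0
  obtain ⟨k, m', hm', rfl⟩ := Nat.exists_eq_pow_mul_and_not_dvd h0 p (Fact.out : p.Prime).ne_one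
  rw [Nat.cast_mul, Nat.cast_pow, mul_eq_zero] at hm
  rcases hm with hm | hm
  · exact pow_ne_zero k S.pK_ne hm
  · have h1 : IsUnit (m' : E0 p n) := by
      rw [MvPowerSeries.isUnit_iff_constantCoeff, map_natCast]
      refine WittVector.isUnit_of_coeff_zero_ne_zero _ ?_
      intro hc
      apply hm'
      rw [← CharP.cast_eq_zero_iff (Coef p n) p]
      have : WittVector.constantCoeff (m' : W p n) = 0 := hc
      rwa [map_natCast] at this
    exact (h1.map S.P.x).ne_zero (by rw [map_natCast]; exact hm)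

/-- `f` has coefficients of norm `≤ τ` at the point. -/
def Small (τ : ℝ) (f : PowerSeries (E0 p n)) : Prop :=
  ∀ d, ‖S.P.x (PowerSeries.coeff d f)‖ ≤ τ

theorem Small.mul {τ τ' : ℝ} {f g : PowerSeries (E0 p n)} (hf : S.Small τ f) (hg : S.Small τ' g) :
    S.Small (τ * τ') (f * g) := fun d => by
  have h0 : 0 ≤ τ * τ' :=
    mul_nonneg ((norm_nonneg _).trans (hf 0)) ((norm_nonneg _).trans (hg 0))
  rw [PowerSeries.coeff_mul, map_sum]
  refine IsUltrametricDist.norm_sum_le_of_forall_le_of_nonneg h0 fun x _ => ?_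
  rw [map_mul, norm_mul]
  exact mul_le_mul (hf _) (hg _) (norm_nonneg _) ((norm_nonneg _).trans (hf 0))

theorem small_one (f : PowerSeries (E0 p n)) : S.Small 1 f := fun _ => S.P.norm_le _

theorem Small.mul_right {τ : ℝ} {f : PowerSeries (E0 p n)} (hf : S.Small τ f)
    (g : PowerSeries (E0 p n)) : S.Small τ (f * g) := by
  simpa using hf.mul S (S.small_one g)

theorem Small.pow {τ : ℝ} {f : PowerSeries (E0 p n)} (hf : S.Small τ f) (k : ℕ) :
    S.Small (τ ^ k) (f ^ k) := by
  induction k with
  | zero => simpa using S.small_one _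
  | succ k ih => rw [pow_succ, pow_succ]; exact ih.mul S hf

/-- Raising congruent series to the `p`-th power improves the congruence. -/
theorem Small.pow_sub_pow {τ : ℝ} {a b : PowerSeries (E0 p n)} (h : S.Small τ (a - b)) :
    S.Small (max (S.π * τ) (τ ^ p)) (a ^ p - b ^ p) := by
  obtain ⟨r, hr⟩ := exists_add_pow_prime_eq (Fact.out : p.Prime) b (a - b)
  rw [add_sub_cancel] at hr
  have e : a ^ p - b ^ p = (a - b) ^ p + (a - b) * (b * r) * (p : PowerSeries (E0 p n)) := by
    rw [hr]; ring
  intro d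
  rw [e, map_add, map_add]
  refine (IsUltrametricDist.norm_add_le_max _ _).trans
    (max_le (le_max_of_le_right (h.pow S p d)) (le_max_of_le_left ?_))
  rw [← map_natCast (PowerSeries.C (R := E0 p n)), PowerSeries.coeff_mul_C, map_mul, natCast_p,
    norm_mul, mul_comm]
  exact mul_le_mul_of_nonneg_left (h.mul_right S (b * r) d) S.π_pos.le

theorem exists_pow_bound : ∃ C : ℝ, 0 < C ∧ ∀ a b : PowerSeries (E0 p n),
    S.Small S.ρ (a - b) → ∀ t : ℕ, S.Small (C * S.π ^ t) (a ^ p ^ t - b ^ p ^ t) := by
  have hπ := S.π_pos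
  have hρ := S.ρ_pos
  obtain ⟨t0, ht0⟩ := exists_pow_lt_of_lt_one hπ S.ρ_lt
  refine ⟨(S.π ^ t0)⁻¹, by positivity, fun a b hab => ?_⟩
  have key : ∀ t, ∃ τ, 0 ≤ τ ∧ τ ≤ S.ρ ^ (t + 1) ∧ τ ≤ (S.π ^ t0)⁻¹ * S.π ^ t ∧
      S.Small τ (a ^ p ^ t - b ^ p ^ t) := by
    intro t
    induction t with
    | zero =>
      refine ⟨S.ρ, hρ.le, by simp, ?_, by simpa using hab⟩
      rw [pow_zero, mul_one]
      exact S.ρ_lt.le.trans (one_le_inv_iff₀.2 ⟨by positivity, pow_le_one₀ hπ.le S.π_lt.le⟩)
    | succ t ih =>
      obtain ⟨τ, h0, h1, h2, h3⟩ := ih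
      have hτ1 : τ ≤ S.ρ := h1.trans (pow_le_of_le_one hρ.le S.ρ_lt.le t.succ_ne_zero)
      have hτp : τ ^ p ≤ τ * τ := by
        rw [← pow_two]
        exact pow_le_pow_of_le_one h0 (hτ1.trans S.ρ_lt.le) (Fact.out : p.Prime).two_le
      refine ⟨max (S.π * τ) (τ ^ p), le_max_of_le_right (by positivity), ?_, ?_, ?_⟩
      · rw [pow_succ' S.ρ (t + 1)]
        refine max_le (mul_le_mul S.π_le h1 h0 hρ.le) (hτp.trans ?_)
        exact mul_le_mul hτ1 h1 h0 hρ.le
      · rcases le_or_gt (t + 1) t0 with ht | ht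
        · have h4 : max (S.π * τ) (τ ^ p) ≤ 1 := max_le
            (mul_le_one₀ S.π_lt.le h0 (hτ1.trans S.ρ_lt.le))
            (pow_le_one₀ h0 (hτ1.trans S.ρ_lt.le))
          refine h4.trans ?_
          rw [inv_mul_eq_div, le_div_iff₀ (by positivity), one_mul]
          exact pow_le_pow_of_le_one hπ.le S.π_lt.le ht
        · have hτπ : τ ≤ S.π :=
            h1.trans ((pow_le_pow_of_le_one hρ.le S.ρ_lt.le (by omega)).trans ht0.le)
          refine max_le ?_ (hτp.trans ((mul_le_mul_of_nonneg_right hτπ h0).trans ?_)) <;>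
          · rw [pow_succ', mul_left_comm]
            exact mul_le_mul_of_nonneg_left h2 hπ.le
      · rw [pow_succ, pow_mul, pow_mul]
        exact h3.pow_sub_pow S
  intro t d
  obtain ⟨τ, -, -, h2, h3⟩ := key t
  exact (h3 d).trans h2

variable {σ : E0 p n →ₐ[W p n] E0 p n} (hσ : ∀ a ∈ 𝔪 p n, σ a ∈ 𝔪 p n)

/-- The logarithm at the moved point. -/
def logP' (σ : E0 p n →ₐ[W p n] E0 p n) : PowerSeries S.K :=
  PowerSeries.map (S.xK' σ) (logSeries p n)

theorem coeff_subst_eq_sum {A : Type*} [CommRing A] {g : PowerSeries A}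
    (hg : g.constantCoeff = 0) (f : PowerSeries A) (d : ℕ) :
    PowerSeries.coeff d (PowerSeries.subst g f) =
      ∑ m ∈ Finset.range (d + 1), PowerSeries.coeff m f * PowerSeries.coeff d (g ^ m) := by
  have h := agree_subst (τ := Unit) hg f (N := d) (M := d + 1) (Nat.lt_succ_self d)
    (Finsupp.single () d) (by rw [Finsupp.degree_single])
  refine h.trans ?_
  rw [map_sum]
  exact Finset.sum_congr rfl fun m _ => coeff_C_mul _ _ _

include hσ in
theorem norm_coeff_logP'_sub {C : ℝ} (hC0 : 0 ≤ C) {a b : PowerSeries (E0 p n)}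
    (ha : a.constantCoeff = 0) (hb : b.constantCoeff = 0)
    (hC : ∀ t : ℕ, S.Small (C * S.π ^ t) (a ^ p ^ t - b ^ p ^ t)) (d : ℕ) :
    ‖PowerSeries.coeff d (PowerSeries.subst (PowerSeries.map S.P.x a) (S.logP' σ)) -
      PowerSeries.coeff d (PowerSeries.subst (PowerSeries.map S.P.x b) (S.logP' σ))‖ ≤ C := by
  have h0 : ∀ {f : PowerSeries (E0 p n)}, f.constantCoeff = 0 →
      (PowerSeries.map S.P.x f).constantCoeff = 0 := fun {f} hf => by
    rw [← PowerSeries.coeff_zero_eq_constantCoeff_apply, PowerSeries.coeff_map,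
      PowerSeries.coeff_zero_eq_constantCoeff_apply, hf, map_zero]
  rw [coeff_subst_eq_sum (h0 ha), coeff_subst_eq_sum (h0 hb), ← Finset.sum_sub_distrib]
  refine IsUltrametricDist.norm_sum_le_of_forall_le_of_nonneg hC0 fun m _ => ?_
  rw [← mul_sub, ← map_pow, ← map_pow, PowerSeries.coeff_map, PowerSeries.coeff_map, ← map_sub,
    ← map_sub, logP', PowerSeries.coeff_map, logSeries, PowerSeries.coeff_mk]
  split_ifs with hm
  · set t := Nat.log p m with ht
    obtain ⟨w, hw⟩ := exists_G_zero (p := p) (n := n) t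
    have hl : (p : S.K) ^ t * S.xK' σ (logCoeff p n t) = S.x' σ w := by
      rw [← xK'_ι, ← hw]; simp [G]
    have h1 : S.π ^ t * ‖S.xK' σ (logCoeff p n t)‖ ≤ 1 := by
      rw [π, ← norm_pow, ← norm_mul, hl]
      simpa using S.norm_x'_pow hσ (N := 0) (a := w) (by simp)
    rw [norm_mul]
    refine (mul_le_mul_of_nonneg_left (hm ▸ hC t d) (norm_nonneg _)).trans ?_
    calc ‖S.xK' σ (logCoeff p n t)‖ * (C * S.π ^ t)
        = C * (S.π ^ t * ‖S.xK' σ (logCoeff p n t)‖) := by ring
      _ ≤ C * 1 := mul_le_mul_of_nonneg_left h1 hC0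
      _ = C := mul_one C
  · simpa using hC0

include hσ in
/-- The transport equation, up to bounded terms. -/
theorem transport {F : FormalGroup (E0 p n)} (hF : IsHazewinkel p n F)
    {a : Coef p n} {e : ℕ} {φ : PowerSeries (E0 p n)}
    (hres : PowerSeries.map (residueMap p n) φ = testAut p n F a e)
    (hφ : IsHom F (F.map σ.toRingHom) φ) {C : ℝ} (hC0 : 0 ≤ C)
    (hC : ∀ a b : PowerSeries (E0 p n), S.Small S.ρ (a - b) →
      ∀ t : ℕ, S.Small (C * S.π ^ t) (a ^ p ^ t - b ^ p ^ t)) :
    ∃ c : S.K, ∀ j : ℕ, ‖c * S.xK (logCoeff p n (e + j)) - S.xK' σ (logCoeff p n (e + j)) -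
      S.P.x (MvPowerSeries.C (WittVector.teichmuller p a)) ^ p ^ j * S.xK' σ (logCoeff p n j)‖ ≤ C := by
  have := S.charZero
  set L := S.logP' σ with hL
  set Lx := S.logP with hLx
  set φb := PowerSeries.map S.P.x φ with hφb
  set Fs := (F.map (S.x' σ)).toPowerSeries with hFs
  set Fx := (F.map S.P.x).toPowerSeries with hFx
  have hFs0 : Fs.constantCoeff = 0 := (F.map (S.x' σ)).zero_constantCoeff
  have hcomp : (S.xK' σ).comp (ι p n) = S.x' σ := RingHom.ext (S.xK'_ι σ)
  have hLadd := log_add_of hF (S.x' σ) (S.xK' σ) hcomp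
  have hφb0 : φb.constantCoeff = 0 := by
    rw [hφb, ← PowerSeries.coeff_zero_eq_constantCoeff_apply, PowerSeries.coeff_map,
      PowerSeries.coeff_zero_eq_constantCoeff_apply, hφ.1, map_zero]
  have hsF := PowerSeries.HasSubst.of_constantCoeff_zero (F.map S.P.x).zero_constantCoeff
  have hsX : ∀ i : Fin 2, PowerSeries.HasSubst (X i : MvPowerSeries (Fin 2) S.K) := fun i =>
    PowerSeries.HasSubst.of_constantCoeff_zero (constantCoeff_X i)
  set A0 := PowerSeries.subst (X 0 : MvPowerSeries (Fin 2) S.K) φb with hA0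
  set A1 := PowerSeries.subst (X 1 : MvPowerSeries (Fin 2) S.K) φb with hA1
  have hA : ∀ i : Fin 2, (PowerSeries.subst (X i : MvPowerSeries (Fin 2) S.K) φb).constantCoeff
      = 0 := fun i => PowerSeries.constantCoeff_subst_eq_zero (constantCoeff_X i) _ hφb0
  have hhom : PowerSeries.subst Fx φb = MvPowerSeries.subst ![A0, A1] Fs := by
    have h := congrArg (MvPowerSeries.map S.P.x) hφ.2
    have hG := PowerSeries.HasSubst.of_constantCoeff_zero F.zero_constantCoeff
    have hXr : ∀ i : Fin 2, PowerSeries.HasSubst (X i : MvPowerSeries (Fin 2) (E0 p n)) :=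
      fun i => PowerSeries.HasSubst.of_constantCoeff_zero (constantCoeff_X i)
    rw [PowerSeries.map_subst hG, map_subst (hasSubst_of_constantCoeff_zero fun i => by
      fin_cases i <;> exact PowerSeries.constantCoeff_subst_eq_zero (constantCoeff_X _) _ hφ.1)]
      at h
    refine h.trans ?_
    rw [FormalGroup.map_toPowerSeries, MvPowerSeries.map_map]
    refine congrArg₂ MvPowerSeries.subst (funext fun i => ?_) rfl
    fin_cases i
    · show MvPowerSeries.map S.P.x (PowerSeries.subst (X 0) φ) = A0
      rw [PowerSeries.map_subst (hXr 0), MvPowerSeries.map_X]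
    · show MvPowerSeries.map S.P.x (PowerSeries.subst (X 1) φ) = A1
      rw [PowerSeries.map_subst (hXr 1), MvPowerSeries.map_X]
  set h := PowerSeries.subst φb L with hh
  have hsφ : PowerSeries.HasSubst φb := PowerSeries.HasSubst.of_constantCoeff_zero' hφb0
  have hcompS : ∀ {g : MvPowerSeries (Fin 2) S.K}, PowerSeries.HasSubst g →
      PowerSeries.subst g h = PowerSeries.subst (PowerSeries.subst g φb) L := fun {g} hg =>
    PowerSeries.subst_comp_subst_apply hsφ hg L
  have hhadd : PowerSeries.subst Fx h =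
      PowerSeries.subst (X 0) h + PowerSeries.subst (X 1) h := by
    rw [hcompS hsF, hcompS (hsX 0), hcompS (hsX 1), hhom]
    exact add_subst_two hFs0 hLadd (hA 0) (hA 1)
  have hLx0 : Lx.constantCoeff = 0 := by
    rw [hLx, logP, ← PowerSeries.coeff_zero_eq_constantCoeff_apply, PowerSeries.coeff_map,
      PowerSeries.coeff_zero_eq_constantCoeff_apply]
    exact (congrArg S.xK (FG.haz p n).constantCoeff_log).trans (map_zero _)
  have hL0 : L.constantCoeff = 0 := by
    rw [hL, logP', ← PowerSeries.coeff_zero_eq_constantCoeff_apply, PowerSeries.coeff_map,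
      PowerSeries.coeff_zero_eq_constantCoeff_apply]
    exact (congrArg (S.xK' σ) (FG.haz p n).constantCoeff_log).trans (map_zero _)
  set c := PowerSeries.coeff 1 h with hc
  have hk : h - c • Lx = 0 := by
    refine eq_zero_of_additive (F.map S.P.x) ?_ ?_ ?_
    · rw [map_sub, PowerSeries.constantCoeff_smul, hLx0, smul_zero, sub_zero]
      exact PowerSeries.constantCoeff_subst_eq_zero hφb0 _ hL0
    · rw [map_sub, map_smul, hLx, logP, PowerSeries.coeff_map, coeff_one_logSeries, map_one,
        smul_eq_mul, mul_one, sub_self]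
    · rw [PowerSeries.subst_sub hsF, PowerSeries.subst_sub (hsX 0),
        PowerSeries.subst_sub (hsX 1), PowerSeries.subst_smul hsF, PowerSeries.subst_smul (hsX 0),
        PowerSeries.subst_smul (hsX 1), hhadd, hLx, S.log_add hF, smul_add]
      abel
  -- comparison with the model series
  set w : E0 p n := MvPowerSeries.C (WittVector.teichmuller p a) with hw
  set mon : PowerSeries (E0 p n) := PowerSeries.C w * PowerSeries.X ^ p ^ e with hmon
  have hpe : p ^ e ≠ 0 := pow_ne_zero _ (Fact.out : p.Prime).ne_zero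
  have hmon0 : mon.constantCoeff = 0 := by simp [hmon, zero_pow hpe]
  set φ₁ : PowerSeries (E0 p n) :=
    (F.map σ.toRingHom).toPowerSeries.subst ![PowerSeries.X, mon] with hφ₁
  have hφ₁0 : φ₁.constantCoeff = 0 :=
    constantCoeff_two (τ := Unit) (F.map σ.toRingHom).zero_constantCoeff
      PowerSeries.constantCoeff_X hmon0
  have hresσ : (residueMap p n).comp σ.toRingHom = residueMap p n := by
    refine RingHom.ext fun z => ?_
    show residueMap p n (σ z) = residueMap p n z
    rw [← sub_eq_zero, ← map_sub]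
    have hb := eq_C_add_sum_leastPart z
    have hmax : σ z - z ∈ 𝔪 p n := by
      rw [hb, map_add, map_sum]
      have hcst : σ (MvPowerSeries.C (constantCoeff z)) = MvPowerSeries.C (constantCoeff z) :=
        σ.commutes _
      rw [hcst, add_sub_add_left_eq_sub, ← Finset.sum_sub_distrib]
      refine Submodule.sum_mem _ fun i _ => ?_
      have hX : (X i : E0 p n) ∈ 𝔪 p n := by
        rw [IsLocalRing.mem_maximalIdeal, mem_nonunits_iff, isUnit_iff_constantCoeff]; simp
      rw [map_mul]
      exact sub_mem (Ideal.mul_mem_right _ _ (hσ _ hX)) (Ideal.mul_mem_right _ _ hX)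
    by_contra hne
    exact (IsLocalRing.mem_maximalIdeal _).1 hmax ((MvPowerSeries.isUnit_iff_constantCoeff).2
      (WittVector.isUnit_of_coeff_zero_ne_zero _ hne))
  have hres₁ : PowerSeries.map (residueMap p n) φ₁ = testAut p n F a e := by
    rw [hφ₁, FG.map_two _ _ PowerSeries.constantCoeff_X hmon0, testAut]
    refine congrArg₂ MvPowerSeries.subst (funext fun i => ?_) ?_
    · fin_cases i
      · exact PowerSeries.map_X _
      · show PowerSeries.map _ mon = _
        rw [hmon, map_mul, PowerSeries.map_C, map_pow, PowerSeries.map_X]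
        rw [hw, residueMap, RingHom.comp_apply, constantCoeff_C]
        exact congrArg (fun z => PowerSeries.C z * PowerSeries.X ^ p ^ e)
          (WittVector.teichmuller_coeff_zero p a)
    · show MvPowerSeries.map _ (MvPowerSeries.map _ F.toPowerSeries) = _
      rw [MvPowerSeries.map_map, hresσ]
      rfl
  have hsmall : S.Small S.ρ (φ - φ₁) := fun d => by
    refine S.ρ_le _ (ker_residueMap_le (RingHom.mem_ker.2 ?_))
    rw [← PowerSeries.coeff_map, map_sub, hres, hres₁, sub_self, map_zero]
  have hbound := S.norm_coeff_logP'_sub hσ hC0 hφ.1 hφ₁0 (hC φ φ₁ hsmall)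
  have hφ₁b : PowerSeries.subst (PowerSeries.map S.P.x φ₁) L =
      L + PowerSeries.subst (PowerSeries.map S.P.x mon) L := by
    rw [hφ₁, FG.map_two _ _ PowerSeries.constantCoeff_X hmon0]
    show PowerSeries.subst (MvPowerSeries.subst _
      (MvPowerSeries.map S.P.x (MvPowerSeries.map σ.toRingHom F.toPowerSeries))) L = _
    rw [MvPowerSeries.map_map, PowerSeries.map_X]
    refine (add_subst_two (τ := Unit) hFs0 hLadd PowerSeries.constantCoeff_X ?_).trans ?_
    · show PowerSeries.constantCoeff (PowerSeries.map S.P.x mon) = 0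
      simp [hmon, zero_pow hpe]
    · rw [PowerSeries.X_subst]
      rfl
  refine ⟨c, fun j => ?_⟩
  have hpd := hbound (p ^ (e + j))
  rw [← hL, ← hφb, ← hh, sub_eq_zero.1 hk, hφ₁b, map_add, map_smul, smul_eq_mul] at hpd
  have hmonk : PowerSeries.coeff (p ^ (e + j)) (PowerSeries.subst (PowerSeries.map S.P.x mon) L) =
      S.P.x w ^ p ^ j * S.xK' σ (logCoeff p n j) := by
    have hσw : S.xK' σ (ι p n w) = S.P.x w := by
      rw [xK'_ι]
      show S.P.x (σ (MvPowerSeries.C (WittVector.teichmuller p a))) = _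
      rw [hw]
      exact congrArg S.P.x (σ.commutes _)
    have e0 : PowerSeries.map S.P.x mon =
        PowerSeries.map (S.xK' σ) (PowerSeries.C (ι p n w) * PowerSeries.X ^ p ^ e) := by
      simp [hmon, map_mul, hσw]
    have h1 : PowerSeries.HasSubst
        (PowerSeries.C (ι p n w) * PowerSeries.X ^ p ^ e : PowerSeries (E0inv p n)) :=
      PowerSeries.HasSubst.of_constantCoeff_zero' (by simp [zero_pow hpe])
    rw [e0, hL, logP']
    refine (congrArg (PowerSeries.coeff (p ^ (e + j)))
      (PowerSeries.map_subst h1 (h := S.xK' σ) (logSeries p n)).symm).trans ?_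
    show PowerSeries.coeff _ (PowerSeries.map (S.xK' σ)
      (PowerSeries.subst _ (FG.haz p n).log)) = _
    rw [PowerSeries.coeff_map, (FG.haz p n).coeff_log_monomial, Finset.sum_eq_single j]
    · rw [if_pos rfl, map_mul, map_pow, hσw, mul_comm]
      rfl
    · intro t _ ht
      rw [if_neg]
      intro h
      exact ht (by have := Nat.pow_right_injective (Fact.out : p.Prime).two_le h; omega)
    · intro hj
      exact absurd (Finset.mem_range.2 (by
        have := Nat.lt_pow_self (n := e + j) (Fact.out : p.Prime).one_lt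
        omega)) hj
  have hLxj : PowerSeries.coeff (p ^ (e + j)) Lx = S.xK (logCoeff p n (e + j)) := by
    rw [hLx, logP, PowerSeries.coeff_map]
    exact congrArg S.xK ((FG.haz p n).coeff_log_pow (e + j))
  have hLj : PowerSeries.coeff (p ^ (e + j)) L = S.xK' σ (logCoeff p n (e + j)) := by
    rw [hL, logP', PowerSeries.coeff_map]
    exact congrArg (S.xK' σ) ((FG.haz p n).coeff_log_pow (e + j))
  rw [hmonk, hLxj, hLj] at hpd
  rw [sub_sub]
  exact hpd

end Setup

end Vale.Agent.P217.H
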